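import Vale.Agent.P167.H592.Cst
import Vale.Agent.P167.QX.Strand
import Vale.Agent.P167.QX.Defs

/-!
# P167, general `q`, block K1: the system of local insertions of the critical random-cluster model

`θ` is the angle with `√q = 2 cos θ`, `P` the infinite-volume measure, `om` the functional of the
insertions of the six-vertex model with `c = 2 cos (θ / 2)`.
-/

namespace Vale.Agent.P167.H592

open Finset Filter Topology MeasureTheory
open Vale.Agent.P152 (Edge Ori vw wt unroll)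
open Vale.Agent.P167.H825
open Vale.Agent.P167.H199 (phF Xc isOm_phF exists_isOm abs_Xc_le cang strand)
open Vale.Agent.P167.A (plane)
open Vale.Agent.P167.QX (XcQ nS)

/-- The functional of the insertions is the limit of the tori, its values on the phase insertions
are random-cluster expectations. -/
structure OmQ (θ : ℝ) (P : Measure Cfg) (om : Ins → ℂ) : Prop where
  isOm : IsOm (2 * Real.cos (θ / 2)) om
  ph : ∀ (S E : Finset Ed) (a : Ed → Bool → ℝ), S ⊆ E → (∀ e ∉ E, ∀ b, a e b = 0) →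
    om ⟨S, phF E a⟩ = ((∫ ω, XcQ θ S a ω ∂P : ℝ) : ℂ)

variable {θ : ℝ} {P : Measure Cfg} {om : Ins → ℂ}

/-- A product over loops which are all `1`. -/
theorem abs_XcQ_zero (hθ : 1 ≤ 2 * Real.cos θ) (S : Finset Ed) (ω : Cfg) :
    |XcQ θ S (fun _ _ => 0) ω| ≤ 2 ^ S.card := by
  have h1 : ∏ᶠ ℓ ∈ {ℓ : Finset Ed | IsLoop ω ℓ ∧ Disjoint ℓ S},
      (2 * Real.cos (cang plane θ (fun _ _ => 0) ω ℓ)) / (2 * Real.cos θ) = 1 := by
    refine finprod_mem_of_eqOn_one fun ℓ hℓ => ?_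
    have h2 := QX.cos_loop_zero (θ := θ) hℓ.1 (a := fun _ _ => 0) fun _ _ => add_zero 0
    show (2 * Real.cos (cang plane θ (fun _ _ => 0) ω ℓ)) / (2 * Real.cos θ) = 1
    rw [h2]
    exact div_self (by linarith)
  unfold XcQ
  rw [h1, one_mul, abs_mul]
  have h3 : |((2 * Real.cos θ) ^ nS S ω)⁻¹| ≤ 1 := by
    rw [abs_inv, abs_of_nonneg (pow_nonneg (by linarith) _)]
    exact inv_le_one_of_one_le₀ (one_le_pow₀ hθ)
  have h4 : |∏ e ∈ S, 2 * Real.cos (cang plane θ (fun _ _ => 0) ω (strand (nx ω) S e))| ≤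
      2 ^ S.card := by
    rw [Finset.abs_prod]
    calc _ ≤ ∏ _e ∈ S, (2 : ℝ) := by
          refine Finset.prod_le_prod (fun _ _ => abs_nonneg _) fun e _ => ?_
          rw [abs_mul, abs_two]
          have := Real.abs_cos_le_one (cang plane θ (fun _ _ => 0) ω (strand (nx ω) S e))
          linarith
      _ = 2 ^ S.card := by rw [prod_const]
  calc _ ≤ 1 * 2 ^ S.card := mul_le_mul h3 h4 (abs_nonneg _) zero_le_one
    _ = 2 ^ S.card := one_mul _

theorem OmQ.norm_one (h : OmQ θ P om) [IsProbabilityMeasure P] (hθ : 1 ≤ 2 * Real.cos θ)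
    (S : Finset Ed) : ‖om ⟨S, fun _ => 1⟩‖ ≤ 4 ^ S.card := by
  have h1 : phF S (fun _ _ => 0) = fun _ => 1 := by
    funext ω
    simp [phF]
  have h2 := h.ph S S (fun _ _ => 0) (le_refl S) (fun _ _ _ => rfl)
  rw [h1] at h2
  rw [h2, Complex.norm_real]
  have h3 := MeasureTheory.norm_integral_le_of_norm_le_const (μ := P)
    (f := fun ω => XcQ θ S (fun _ _ => 0) ω) (C := 2 ^ S.card)
    (Filter.Eventually.of_forall fun ω => by
      rw [Real.norm_eq_abs]
      exact abs_XcQ_zero hθ S ω)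
  refine h3.trans ?_
  rw [probReal_univ, mul_one]
  exact pow_le_pow_left₀ (by norm_num) (by norm_num) _

theorem cos_half_nonneg (hθ0 : 0 ≤ θ) (hθ1 : θ ≤ Real.pi) : 0 ≤ 2 * Real.cos (θ / 2) := by
  have := Real.cos_nonneg_of_mem_Icc (x := θ / 2)
    ⟨by linarith [Real.pi_pos], by linarith⟩
  linarith

/-- **`Sys.Ok` for all `1 ≤ q < 4`.** -/
theorem OmQ.ok (h : OmQ θ P om) [IsProbabilityMeasure P] (hθ : 1 ≤ 2 * Real.cos θ)
    (hθ0 : 0 ≤ θ) (hθ1 : θ ≤ Real.pi) : (sysOm om).Ok :=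
  h.isOm.sysOk (cos_half_nonneg hθ0 hθ1) (h.norm_one hθ)

/-- Value of a phase insertion. -/
theorem OmQ.om_phI (h : OmQ θ P om) {S E : Finset Ed} (hSE : S ⊆ E) {a : Ed → Bool → ℝ}
    (ha : ∀ e ∉ E, ∀ b, a e b = 0) :
    om (phI S E a).1 = ((∫ ω, XcQ θ S a ω ∂P : ℝ) : ℂ) :=
  h.ph S E a hSE ha

/-- Value of a phase insertion, the cuts being anywhere. -/
theorem OmQ.om_phI' (h : OmQ θ P om) {S E : Finset Ed} {a : Ed → Bool → ℝ}
    (ha : ∀ e ∉ E, ∀ b, a e b = 0) :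
    om (phI S E a).1 = ((∫ ω, XcQ θ S a ω ∂P : ℝ) : ℂ) := by
  classical
  have ha' : ∀ e ∉ S ∪ E, ∀ b, a e b = 0 := fun e he b => ha e (fun h => he (mem_union_right _ h)) b
  rw [phI_eq (S := S) ha ha' rfl]
  exact h.om_phI subset_union_left ha'

/-- **The reflection form of phase insertions is a random-cluster expectation.** -/
theorem OmQ.w_phI_th (h : OmQ θ P om) {R : Rf (ℤ × ℤ)} {l : ℤ × ℤ → ℤ × ℤ} (hP : R.Lin l)
    (v : ℤ × ℤ) {S E S' E' : Finset Ed} {a a' : Ed → Bool → ℝ} (ha : ∀ e ∉ E, ∀ b, a e b = 0)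
    (ha' : ∀ e ∉ E', ∀ b, a' e b = 0) :
    (sysOm om).w (phI S E a * LIns.sh v (LIns.th hP (phI S' E' a'))) =
      ((∫ ω, XcQ θ (S ∪ R.imS v S') (fun e b => a e b + shA v (R.thA a') e b) ω ∂P : ℝ) : ℂ) := by
  classical
  rw [shth_phI, phI_mul ha (thA_off hP.ok ha' v)]
  refine h.om_phI' fun e he b => ?_
  rw [mem_union, not_or] at he
  rw [ha e he.1, thA_off hP.ok ha' v e he.2, add_zero]

end Vale.Agent.P167.H592
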