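import Vale.Agent.P167.H592.Inst

/-!
# P167, block K1: bounds, `Sys.Ok`, linearity
-/

namespace Vale.Agent.P167.H592

open Finset Filter Topology
open Vale.Agent.P152 (Edge Ori vw wt unroll)
open Vale.Agent.P167.H825

theorem LI.bound {K : Set (ℤ × ℤ)} {A : Ins} (hA : LI K A) : ∃ B : ℝ, ∀ ω, ‖A.F ω‖ ≤ B := by
  classical
  obtain ⟨Λ, -, -, h3⟩ := hA
  let G : (Λ → Bool → Bool) → ℂ := fun x =>
    A.F (fun e => if h : e ∈ Λ then x ⟨e, h⟩ else fun _ => false)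
  refine ⟨∑ x, ‖G x‖, fun ω => ?_⟩
  have h : A.F ω = G (fun e => ω e) := by
    refine h3 _ _ fun e he => ?_
    show ω e = if h : e ∈ Λ then ω e else fun _ => false
    rw [dif_pos he]
  rw [h]
  exact Finset.single_le_sum (f := fun x => ‖G x‖) (fun x _ => norm_nonneg _)
    (mem_univ (fun e : Λ => ω e))

theorem LI.const {K : Set (ℤ × ℤ)} {A : Ins} (hA : LI K A) : LI K ⟨A.S, fun _ => 1⟩ := by
  obtain ⟨Λ, h1, h2, -⟩ := hA
  exact ⟨Λ, h1, h2, fun _ _ _ => rfl⟩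

theorem tv_bound {V : Type} [AddCommGroup V] [Fintype V] [DecidableEq V] {c : ℝ} (hc : 0 ≤ c)
    (g1 g2 : V) (S : Finset (Edge (ℤ × ℤ))) {F : HO (ℤ × ℤ) → ℂ} {B : ℝ}
    (hF : ∀ ω, ‖F ω‖ ≤ B) : ‖tv c g1 g2 S F‖ ≤ B * ‖tv c g1 g2 S (fun _ => 1)‖ := by
  classical
  have h0 : ∀ ω : HO V, 0 ≤ hw c g1 g2 ω := fun ω =>
    Finset.prod_nonneg fun v _ => vw_nonneg hc _ _ _ _
  have h1 : ‖zv c g1 g2 S F‖ ≤ B * ∑ ω : HO V, if NoDef (S.image (emE g1 g2)) ω then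
      hw c g1 g2 ω else 0 := by
    unfold zv
    rw [Finset.mul_sum]
    refine (norm_sum_le _ _).trans (Finset.sum_le_sum fun ω _ => ?_)
    split_ifs
    · rw [norm_mul, Complex.norm_real, Real.norm_of_nonneg (h0 ω), mul_comm]
      exact mul_le_mul_of_nonneg_right (hF _) (h0 ω)
    · simp
  have h2 : zv c g1 g2 S (fun _ => 1) = ((∑ ω : HO V, if NoDef (S.image (emE g1 g2)) ω then
      hw c g1 g2 ω else 0 : ℝ) : ℂ) := by
    unfold zv
    push_cast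
    refine Finset.sum_congr rfl fun ω _ => ?_
    split_ifs <;> simp
  have h3 : 0 ≤ ∑ ω : HO V, if NoDef (S.image (emE g1 g2)) ω then hw c g1 g2 ω else 0 :=
    Finset.sum_nonneg fun ω _ => by
      split_ifs
      · exact h0 ω
      · exact le_rfl
  unfold tv
  rw [norm_div, norm_div, h2, Complex.norm_real, Real.norm_of_nonneg h3, ← mul_div_assoc]
  exact div_le_div_of_nonneg_right h1 (norm_nonneg _)

variable {c : ℝ} {om : Ins → ℂ}

theorem IsOm.bound (h : IsOm c om) (hc : 0 ≤ c) {A : Ins} (hA : LI Set.univ A) {B : ℝ}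
    (hB : ∀ ω, ‖A.F ω‖ ≤ B) : ‖om A‖ ≤ B * ‖om ⟨A.S, fun _ => 1⟩‖ := by
  have h1 := (h.tendsto_std hA).norm
  have h2 := ((h.tendsto_std hA.const).norm).const_mul B
  exact le_of_tendsto_of_tendsto' h1 h2 fun n => tv_bound hc _ _ _ hB

/-- linearity in the functional -/
theorem IsOm.add (h : IsOm c om) {S : Finset (Edge (ℤ × ℤ))} {F G : HO (ℤ × ℤ) → ℂ}
    (hF : LI Set.univ ⟨S, F⟩) (hG : LI Set.univ ⟨S, G⟩) :
    om ⟨S, fun ω => F ω + G ω⟩ = om ⟨S, F⟩ + om ⟨S, G⟩ := by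
  have hFG : LI Set.univ ⟨S, fun ω => F ω + G ω⟩ := by
    obtain ⟨Λ, h1, h2, h3⟩ := hF
    obtain ⟨Λ', h1', -, h3'⟩ := hG
    refine ⟨Λ ∪ Λ', fun e _ => mem_EdT_univ e, h2.trans Finset.subset_union_left,
      fun ω ω' hh => ?_⟩
    show F ω + G ω = F ω' + G ω'
    rw [show F ω = F ω' from h3 ω ω' fun e he => hh e (Finset.mem_union_left _ he),
      show G ω = G ω' from h3' ω ω' fun e he => hh e (Finset.mem_union_right _ he)]
  refine tendsto_nhds_unique (h.tendsto_std hFG) ?_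
  refine ((h.tendsto_std hF).add (h.tendsto_std hG)).congr fun n => ?_
  unfold tv
  rw [← add_div]
  congr 1
  unfold zv
  rw [← Finset.sum_add_distrib]
  refine Finset.sum_congr rfl fun ω _ => ?_
  split_ifs
  · ring
  · ring

theorem IsOm.smul (h : IsOm c om) {S : Finset (Edge (ℤ × ℤ))} {F : HO (ℤ × ℤ) → ℂ}
    (hF : LI Set.univ ⟨S, F⟩) (z : ℂ) :
    om ⟨S, fun ω => z * F ω⟩ = z * om ⟨S, F⟩ := by
  have hFG : LI Set.univ ⟨S, fun ω => z * F ω⟩ := by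
    obtain ⟨Λ, h1, h2, h3⟩ := hF
    refine ⟨Λ, h1, h2, fun ω ω' hh => ?_⟩
    show z * F ω = z * F ω'
    rw [show F ω = F ω' from h3 ω ω' hh]
  refine tendsto_nhds_unique (h.tendsto_std hFG) ?_
  refine ((h.tendsto_std hF).const_mul z).congr fun n => ?_
  unfold tv
  rw [← mul_div_assoc]
  congr 1
  unfold zv
  rw [Finset.mul_sum]
  refine Finset.sum_congr rfl fun ω _ => ?_
  show z * (if NoDef (S.image (emE (1, 0) (0, 1))) ω then _ else 0) = _
  split_ifs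
  · ring
  · ring

theorem IsOm.sysOk (h : IsOm c om) (hc : 0 ≤ c)
    (hb : ∀ S : Finset (Edge (ℤ × ℤ)), ‖om ⟨S, fun _ => 1⟩‖ ≤ 4 ^ S.card) :
    (sysOm om).Ok where
  mono hA hK := LI.mono hA hK
  one K := LI.one K
  mul hA hB := LI.mul hA hB
  shift a hA := LI.shift a hA
  sh_mul := LIns.sh_mul
  sh_one := LIns.sh_one
  sh_zero := LIns.sh_zero
  sh_sh := LIns.sh_sh
  w_sh a A := h.shift A.2 a
  bdd A B := by
    classical
    obtain ⟨b1, hb1⟩ := A.2.bound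
    obtain ⟨b2, hb2⟩ := B.2.bound
    have hb10 : 0 ≤ b1 := (norm_nonneg _).trans (hb1 fun _ _ => false)
    refine ⟨b1 * b2 * 4 ^ (A.1.S.card + B.1.S.card), fun v => ?_⟩
    have h1 : ∀ ω, ‖(A * LIns.sh v B).1.F ω‖ ≤ b1 * b2 := by
      intro ω
      show ‖A.1.F ω * B.1.F (shH v ω)‖ ≤ b1 * b2
      rw [norm_mul]
      exact mul_le_mul (hb1 _) (hb2 _) (norm_nonneg _) hb10
    have hb120 : 0 ≤ b1 * b2 := (norm_nonneg _).trans (h1 fun _ _ => false)
    refine (h.bound hc (A * LIns.sh v B).2 h1).trans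
      (mul_le_mul_of_nonneg_left ((hb _).trans ?_) hb120)
    refine pow_le_pow_right₀ (by norm_num) ?_
    show (A.1.S ∪ B.1.S.image (shE v)).card ≤ _
    exact (Finset.card_union_le _ _).trans (Nat.add_le_add_left Finset.card_image_le _)

end Vale.Agent.P167.H592
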