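import Vale.Agent.P167.H592.Os

/-!
# P167, block K1: constants in the monoid of insertions
-/

namespace Vale.Agent.P167.H592

open Finset Filter Topology MeasureTheory
open Vale.Agent.P152 (Edge Ori vw wt unroll)
open Vale.Agent.P167.H825
open Vale.Agent.P167.H199 (phF Xc isOm_phF exists_isOm abs_Xc_le)

/-- The constant insertion `z`. -/
def cst (z : ℂ) : LIns := ⟨⟨∅, fun _ => z⟩, ⟨∅, by simp, by simp, fun _ _ _ => rfl⟩⟩

theorem cst_LI (K : Set (ℤ × ℤ)) (z : ℂ) : LI K (cst z).1 :=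
  ⟨∅, by simp, Finset.Subset.refl _, fun _ _ _ => rfl⟩

theorem cst_one : cst 1 = 1 := LIns.ext' rfl fun _ => rfl

theorem cst_mul (z w : ℂ) : cst z * cst w = cst (z * w) :=
  LIns.ext' (Finset.empty_union _) fun _ => rfl

theorem cst_prod {ι : Type} (s : Finset ι) (z : ι → ℂ) : ∏ i ∈ s, cst (z i) = cst (∏ i ∈ s, z i) := by
  classical
  induction s using Finset.induction_on with
  | empty => exact cst_one.symm
  | insert a s ha ih => rw [Finset.prod_insert ha, Finset.prod_insert ha, ih, cst_mul]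

theorem sh_cst (a : ℤ × ℤ) (z : ℂ) : LIns.sh a (cst z) = cst z :=
  LIns.ext' (Finset.image_empty _) fun _ => rfl

theorem th_cst {P : Rf (ℤ × ℤ)} {l : ℤ × ℤ → ℤ × ℤ} (hP : P.Lin l) (z : ℂ) :
    LIns.th hP (cst z) = cst ((starRingEnd ℂ) z) :=
  LIns.ext' (Finset.image_empty _) fun _ => rfl

theorem cst_mul_S (z : ℂ) (A : LIns) : (cst z * A).1.S = A.1.S := Finset.empty_union _

theorem cst_mul_F (z : ℂ) (A : LIns) (ω : HO (ℤ × ℤ)) : (cst z * A).1.F ω = z * A.1.F ω := rfl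

variable {c : ℝ} {om : Ins → ℂ}

theorem IsOm.cst_mul (h : IsOm c om) (z : ℂ) (A : LIns) : om (cst z * A).1 = z * om A.1 := by
  have h1 : (cst z * A).1 = ⟨A.1.S, fun ω => z * A.1.F ω⟩ := Ins.ext (Finset.empty_union _) rfl
  rw [h1]
  exact h.smul (S := A.1.S) (F := A.1.F) A.2 z

/-- linearity: sum of two insertions with the same cuts -/
theorem IsOm.add' (h : IsOm c om) {A B C : LIns} (hB : B.1.S = A.1.S) (hC : C.1.S = A.1.S)
    (hF : ∀ ω, C.1.F ω = A.1.F ω + B.1.F ω) : om C.1 = om A.1 + om B.1 := by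
  have h1 : C.1 = ⟨A.1.S, fun ω => A.1.F ω + B.1.F ω⟩ := Ins.ext hC (funext hF)
  have h2 : B.1 = ⟨A.1.S, B.1.F⟩ := Ins.ext hB rfl
  have h3 : LI Set.univ ⟨A.1.S, B.1.F⟩ := h2 ▸ B.2
  rw [h1, h.add (S := A.1.S) (F := A.1.F) (G := B.1.F) A.2 h3, ← h2]

end Vale.Agent.P167.H592
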