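import Vale.Agent.P167.H592.HDefs
import Vale.Agent.P145.FA.RpSum

/-!
# P167, block K1: reflections of the half arrows and folding
-/

namespace Vale.Agent.P167.H592

open Finset
open Vale.Agent.P152 (Edge Ori vw wt unroll)

/-- A reflection of the half arrows. -/
structure Rf (V : Type) where
  ρ : Edge V → Edge V
  t : Edge V → Bool
  s : Edge V → Bool

structure Rf.Ok {V : Type} (R : Rf V) : Prop where
  ρρ : ∀ e, R.ρ (R.ρ e) = e
  tρ : ∀ e, R.t (R.ρ e) = R.t e
  sρ : ∀ e, R.s (R.ρ e) = R.s e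

/-- The action on the half-arrow configurations. -/
def Rf.act {V : Type} (R : Rf V) (ω : HO V) : HO V :=
  fun e b => xor (R.s e) (ω (R.ρ e) (xor (R.t e) b))

theorem Rf.Ok.act_act {V : Type} {R : Rf V} (h : R.Ok) (ω : HO V) : R.act (R.act ω) = ω := by
  funext e b
  simp only [Rf.act, h.ρρ, h.tρ, h.sρ, ← Bool.xor_assoc, Bool.xor_self, Bool.false_xor]

section fold

variable {V : Type} [Fintype V] [DecidableEq V]

/-- Half-arrow configurations as functions with values in `ZMod 2`. -/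
def toZ : HO V ≃ (Edge V × Bool → ZMod 2) where
  toFun ω p := if ω p.1 p.2 then 1 else 0
  invFun k e b := decide (k (e, b) = 1)
  left_inv ω := by
    funext e b
    show decide ((if ω e b then (1 : ZMod 2) else 0) = 1) = ω e b
    cases ω e b <;> decide
  right_inv k := by
    funext p
    show (if decide (k (p.1, p.2) = 1) = true then (1 : ZMod 2) else 0) = k p
    have hz : ∀ x : ZMod 2, (if decide (x = 1) = true then (1 : ZMod 2) else 0) = x := by decide
    exact hz _

/-- **Folding** with a positive kernel on the mirror. -/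
theorem fold_kernel {R : Rf V} (h : R.Ok) (A : Edge V → Bool → Prop)
    (hA : ∀ e b, A e b ↔ ¬ A (R.ρ e) (xor (R.t e) b)) {ι U : Type} [Fintype ι] [DecidableEq ι]
    {a : ℕ} (W : HO V → ℝ) (hW : ∀ ω ω' : HO V, (∀ e b, A e b → ω e b = ω' e b) → W ω = W ω')
    (u : ι → HO V → U) (hu : ∀ i (ω ω' : HO V), (∀ e b, A e b → ω e b = ω' e b) → u i ω = u i ω')
    (K : U → U → ℝ) (g : Fin a → U → ℝ) (hK : ∀ x y, K x y = ∑ α, g α x * g α y) :
    0 ≤ ∑ ω : HO V, W ω * W (R.act ω) * ∏ i, K (u i ω) (u i (R.act ω)) := by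
  classical
  let σ : Edge V × Bool → Edge V × Bool := fun p => (R.ρ p.1, xor (R.t p.1) p.2)
  let d : Edge V × Bool → ZMod 2 := fun p => if R.s p.1 then 1 else 0
  have hσ : ∀ p, σ (σ p) = p := by
    intro p
    show (R.ρ (R.ρ p.1), xor (R.t (R.ρ p.1)) (xor (R.t p.1) p.2)) = p
    rw [h.ρρ, h.tρ, ← Bool.xor_assoc, Bool.xor_self, Bool.false_xor]
  have hd : ∀ p, d (σ p) = d p := by
    intro p
    show (if R.s (R.ρ p.1) then (1 : ZMod 2) else 0) = if R.s p.1 then 1 else 0
    rw [h.sρ]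
  have key := Vale.Agent.P145.FA.rp_sum_kernel (ι := ι) (U := U) (a := a) σ hσ d hd
    (fun p => A p.1 p.2)
    (by
      intro p
      by_cases hp : A p.1 p.2
      · exact Or.inl hp
      · right
        by_contra hc
        exact hp ((hA p.1 p.2).2 hc))
    (by
      intro p hp hp'
      exact absurd hp' ((hA p.1 p.2).1 hp))
    (fun k => W (toZ.symm k))
    (by
      intro k k' hk
      refine hW _ _ fun e b hb => ?_
      show decide (k (e, b) = 1) = decide (k' (e, b) = 1)
      rw [hk (e, b) hb])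
    (fun i k => u i (toZ.symm k))
    (by
      intro i k k' hk
      refine hu i _ _ fun e b hb => ?_
      show decide (k (e, b) = 1) = decide (k' (e, b) = 1)
      rw [hk (e, b) hb]) K g hK
  rw [← Equiv.sum_comp (toZ (V := V))] at key
  refine key.trans (le_of_eq (Finset.sum_congr rfl fun ω _ => ?_))
  have e1 : (toZ (V := V)).symm (toZ ω) = ω := Equiv.symm_apply_apply _ _
  have e2 : (toZ (V := V)).symm (fun p => toZ ω (σ p) + d p) = R.act ω := by
    funext e b
    show decide ((if ω (R.ρ e) (xor (R.t e) b) then (1 : ZMod 2) else 0) +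
      (if R.s e then 1 else 0) = 1) = xor (R.s e) (ω (R.ρ e) (xor (R.t e) b))
    cases R.s e <;> cases ω (R.ρ e) (xor (R.t e) b) <;> decide
  simp only [e1, e2]

/-- Folding for complex functionals. -/
theorem fold_kernelC {R : Rf V} (h : R.Ok) (A : Edge V → Bool → Prop)
    (hA : ∀ e b, A e b ↔ ¬ A (R.ρ e) (xor (R.t e) b)) {ι U : Type} [Fintype ι] [DecidableEq ι]
    {a : ℕ} (W : HO V → ℂ) (hW : ∀ ω ω' : HO V, (∀ e b, A e b → ω e b = ω' e b) → W ω = W ω')
    (u : ι → HO V → U) (hu : ∀ i (ω ω' : HO V), (∀ e b, A e b → ω e b = ω' e b) → u i ω = u i ω')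
    (K : U → U → ℝ) (g : Fin a → U → ℝ) (hK : ∀ x y, K x y = ∑ α, g α x * g α y) :
    0 ≤ (∑ ω : HO V, (starRingEnd ℂ) (W (R.act ω)) * W ω *
      ((∏ i, K (u i ω) (u i (R.act ω)) : ℝ) : ℂ)).re := by
  have h1 := fold_kernel h A hA (fun ω => (W ω).re)
    (fun ω ω' hh => by rw [hW ω ω' hh]) u hu K g hK
  have h2 := fold_kernel h A hA (fun ω => (W ω).im)
    (fun ω ω' hh => by rw [hW ω ω' hh]) u hu K g hK
  rw [Complex.re_sum]
  have e : ∑ ω : HO V, ((starRingEnd ℂ) (W (R.act ω)) * W ω *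
      ((∏ i, K (u i ω) (u i (R.act ω)) : ℝ) : ℂ)).re =
      (∑ ω : HO V, (W ω).re * (W (R.act ω)).re * ∏ i, K (u i ω) (u i (R.act ω))) +
      ∑ ω : HO V, (W ω).im * (W (R.act ω)).im * ∏ i, K (u i ω) (u i (R.act ω)) := by
    rw [← Finset.sum_add_distrib]
    refine Finset.sum_congr rfl fun ω _ => ?_
    rw [Complex.re_mul_ofReal, Complex.mul_re, Complex.conj_re, Complex.conj_im]
    ring
  rw [e]
  exact add_nonneg h1 h2

end fold

end Vale.Agent.P167.H592
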