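import Vale.Agent.P167.H592.Lim
import Vale.Agent.P167.H825.Sys

/-!
# P167, block K1: the system of local insertions of the plane (`Sys.Ok`, `Sys.Refl`)
-/

namespace Vale.Agent.P167.H592

open Finset Filter Topology
open Vale.Agent.P152 (Edge Ori vw wt unroll)
open Vale.Agent.P167.H825

/-- The system of the local insertions. -/
def sysOm (om : Ins → ℂ) : Sys LIns where
  w A := om A.1
  In K A := LI K A.1
  sh := LIns.sh

/-- A reflection in the origin of a direction, abstract form. -/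
structure Rfl (om : Ins → ℂ) (l : ℤ × ℤ → ℤ × ℤ) (θ : LIns → LIns) : Prop where
  mul : ∀ A B, θ (A * B) = θ A * θ B
  one : θ 1 = 1
  θθ : ∀ A, θ (θ A) = A
  sh : ∀ a A, θ (LIns.sh a A) = LIns.sh (l a) (θ A)
  loc : ∀ {K : Set (ℤ × ℤ)} {A : LIns}, LI K A.1 → LI {q | l q ∈ K} (θ A).1
  conj : ∀ A, om (θ A).1 = (starRingEnd ℂ) (om A.1)

theorem Rfl.conjg {om : Ins → ℂ} {l l' : ℤ × ℤ → ℤ × ℤ} {θ φ : LIns → LIns}
    (h : Rfl om l θ) (h' : Rfl om l' φ) :
    Rfl om (fun q => l' (l (l' q))) (fun A => φ (θ (φ A))) where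
  mul A B := by rw [h'.mul, h.mul, h'.mul]
  one := by rw [h'.one, h.one, h'.one]
  θθ A := by rw [h'.θθ, h.θθ, h'.θθ]
  sh a A := by rw [h'.sh, h.sh, h'.sh]
  loc hA := h'.loc (h.loc (h'.loc hA))
  conj A := by rw [h'.conj, h.conj, h'.conj, Complex.conj_conj]

variable {c : ℝ} {om : Ins → ℂ}

theorem IsOm.rfl_X (h : IsOm c om) (hc : 0 ≤ c) :
    Rfl om (fun a => (-a.1, a.2)) (LIns.th rX_lin) where
  mul := LIns.th_mul _
  one := LIns.th_one _
  θθ := LIns.th_th _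
  sh := LIns.th_sh _
  loc hA := rX_lin.LI hA
  conj A := h.th_X hc A.2

theorem IsOm.rfl_D (h : IsOm c om) (hc : 0 ≤ c) :
    Rfl om (fun a => (a.2, a.1)) (LIns.th rD_lin) where
  mul := LIns.th_mul _
  one := LIns.th_one _
  θθ := LIns.th_th _
  sh := LIns.th_sh _
  loc hA := rD_lin.LI hA
  conj A := h.th_D hc A.2

/-! ### positivity at the origin -/

theorem hX_int {K : ℕ} [NeZero K] {x : ℤ} (h1 : 1 ≤ x) (h2 : x ≤ K) :
    hX K (x : ZMod (2 * K)) := by
  have hK : 0 < K := Nat.pos_of_ne_zero (NeZero.ne K)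
  lift x to ℕ using by omega
  unfold hX
  rw [Int.cast_natCast, ZMod.val_natCast, Nat.mod_eq_of_lt (by omega)]
  omega

theorem val_int {K : ℕ} [NeZero K] {x : ℤ} (h1 : 0 ≤ x) (h2 : x < 2 * K) :
    (((x : ZMod (2 * K)).val : ℕ) : ℤ) = x := by
  lift x to ℕ using h1
  rw [Int.cast_natCast, ZMod.val_natCast, Nat.mod_eq_of_lt (by omega)]

theorem ev_AX {e : Edge (ℤ × ℤ)} (he : e ∈ EdT {q | 0 ≤ q.1}) :
    ∀ᶠ n : ℕ in atTop, ∀ b, AX (2 * n + 2) (2 * n + 2) (emE (1, 0) (0, 1) e) b := by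
  rcases e with v | v
  · have h1 : 1 ≤ v.1 := by
      have := he (-1) 0 (by norm_num) (by norm_num) (by norm_num) (by norm_num)
      have : 0 ≤ v.1 + -1 := this
      omega
    filter_upwards [eventually_ge_atTop v.1.natAbs] with n hn b
    have hb : v.1 + 1 ≤ ((2 * n + 2 : ℕ) : ℤ) := by omega
    cases b
    · show hX (2 * n + 2) (em ((1, 0) : ZMod (2 * (2 * n + 2)) × ZMod (2 * n + 2)) (0, 1) v).1
      rw [em_inl_std]
      exact hX_int h1 (by omega)
    · show hX (2 * n + 2)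
        ((em ((1, 0) : ZMod (2 * (2 * n + 2)) × ZMod (2 * n + 2)) (0, 1) v).1 + 1)
      rw [em_inl_std]
      have := hX_int (K := 2 * n + 2) (x := v.1 + 1) (by omega) hb
      push_cast at this
      exact this
  · have h1 : 1 ≤ v.1 := by
      have := he (-1) 0 (by norm_num) (by norm_num) (by norm_num) (by norm_num)
      have : 0 ≤ v.1 + -1 := this
      omega
    filter_upwards [eventually_ge_atTop v.1.natAbs] with n hn b
    show hX (2 * n + 2) (em ((1, 0) : ZMod (2 * (2 * n + 2)) × ZMod (2 * n + 2)) (0, 1) v).1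
    rw [em_inl_std]
    exact hX_int h1 (by omega)

theorem ev_AD {e : Edge (ℤ × ℤ)} (he : e ∈ EdT {q | 0 ≤ q.1 - q.2}) :
    ∀ᶠ n : ℕ in atTop, ∀ b, AD (2 * n + 2) (emE (1, 0) (-1, 1) e) b := by
  rcases e with v | v
  · have h1 : 1 ≤ v.1 - v.2 := by
      have := he (-1) 0 (by norm_num) (by norm_num) (by norm_num) (by norm_num)
      have : 0 ≤ v.1 + -1 - (v.2 + 0) := this
      omega
    filter_upwards [eventually_ge_atTop (v.1 - v.2).natAbs] with n hn b
    show (em ((1, 0) : ZMod (2 * (2 * n + 2)) × ZMod (2 * n + 2)) (-1, 1) v).1.val < 2 * n + 2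
    rw [em_skew]
    have := val_int (K := 2 * n + 2) (x := v.1 - v.2) (by omega) (by omega)
    show (((v.1 - v.2 : ℤ) : ZMod (2 * (2 * n + 2)))).val < 2 * n + 2
    omega
  · have h1 : 2 ≤ v.1 - v.2 := by
      have := he (-1) 1 (by norm_num) (by norm_num) (by norm_num) (by norm_num)
      have : 0 ≤ v.1 + -1 - (v.2 + 1) := this
      omega
    filter_upwards [eventually_ge_atTop (v.1 - v.2).natAbs] with n hn b
    show 1 ≤ (em ((1, 0) : ZMod (2 * (2 * n + 2)) × ZMod (2 * n + 2)) (-1, 1) v).1.val ∧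
      (em ((1, 0) : ZMod (2 * (2 * n + 2)) × ZMod (2 * n + 2)) (-1, 1) v).1.val ≤ 2 * n + 2
    rw [em_skew]
    have := val_int (K := 2 * n + 2) (x := v.1 - v.2) (by omega) (by omega)
    show 1 ≤ (((v.1 - v.2 : ℤ) : ZMod (2 * (2 * n + 2)))).val ∧
      (((v.1 - v.2 : ℤ) : ZMod (2 * (2 * n + 2)))).val ≤ 2 * n + 2
    omega

theorem IsOm.pos_X (h : IsOm c om) (hc : 0 ≤ c) {k : ℕ} (A : Fin k → LIns) (cc : Fin k → ℂ)
    (hA : ∀ i, LI {q | 0 ≤ q.1} (A i).1) :
    0 ≤ (∑ i, ∑ j, (starRingEnd ℂ) (cc i) * cc j *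
      om (LIns.th rX_lin (A i) * A j).1).re := by
  obtain ⟨Λ, h1, h2, h3⟩ := common_supp hA
  choose r hr0 hr using fun n : ℕ => zv_one_real
    (V := ZMod (2 * (2 * n + 2)) × ZMod (2 * n + 2)) (g1 := (1, 0)) (g2 := (0, 1)) hc
  refine pos_limit (fun i j => (LIns.th rX_lin (A i) * A j).1) cc (r := r)
    (u := fun n i j => zv (V := ZMod (2 * (2 * n + 2)) × ZMod (2 * n + 2)) c (1, 0) (0, 1)
      (LIns.th rX_lin (A i) * A j).1.S (LIns.th rX_lin (A i) * A j).1.F) hr0 ?_ ?_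
  · intro i j
    refine (h.tendsto_std (LIns.th rX_lin (A i) * A j).2).congr fun n => ?_
    unfold tv
    rw [hr]
  · have hev : ∀ᶠ n : ℕ in atTop, ∀ e ∈ Λ, ∀ b,
        AX (2 * n + 2) (2 * n + 2) (emE (1, 0) (0, 1) e) b :=
      (Filter.eventually_all_finset Λ).2 fun e he => ev_AX (h1 e he)
    filter_upwards [hev] with n hn
    exact rp_torX c hn (fun i => (A i).1.S) (fun i => (A i).1.F) cc h2 h3

theorem IsOm.pos_D (h : IsOm c om) (hc : 1 ≤ c) {k : ℕ} (A : Fin k → LIns) (cc : Fin k → ℂ)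
    (hA : ∀ i, LI {q | 0 ≤ q.1 - q.2} (A i).1) :
    0 ≤ (∑ i, ∑ j, (starRingEnd ℂ) (cc i) * cc j *
      om (LIns.th rD_lin (A i) * A j).1).re := by
  obtain ⟨Λ, h1, h2, h3⟩ := common_supp hA
  choose r hr0 hr using fun n : ℕ => zv_one_real
    (V := ZMod (2 * (2 * n + 2)) × ZMod (2 * n + 2)) (g1 := (1, 0)) (g2 := (-1, 1))
    (zero_le_one.trans hc)
  refine pos_limit (fun i j => (LIns.th rD_lin (A i) * A j).1) cc (r := r)
    (u := fun n i j => zv (V := ZMod (2 * (2 * n + 2)) × ZMod (2 * n + 2)) c (1, 0) (-1, 1)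
      (LIns.th rD_lin (A i) * A j).1.S (LIns.th rD_lin (A i) * A j).1.F) hr0 ?_ ?_
  · intro i j
    refine (h.tendsto_skew (LIns.th rD_lin (A i) * A j).2).congr fun n => ?_
    unfold tv
    rw [hr]
  · have hev : ∀ᶠ n : ℕ in atTop, ∀ e ∈ Λ, ∀ b,
        AD (2 * n + 2) (emE (1, 0) (-1, 1) e) b :=
      (Filter.eventually_all_finset Λ).2 fun e he => ev_AD (h1 e he)
    filter_upwards [hev] with n hn
    exact rp_torD hc hn (fun i => (A i).1.S) (fun i => (A i).1.F) cc h2 h3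

/-! ### all levels of a direction -/

theorem refl_of (h : IsOm c om) {l : ℤ × ℤ → ℤ × ℤ} {θ : LIns → LIns} (hR : Rfl om l θ)
    {D : GDir} (hD : D.Ok) (hls : ∀ m : ℤ, l (m • D.s) = -(m • D.s))
    (hρ : ∀ (m : ℤ) q, l (q - m • D.s) = D.ρ m q) {a0 : ℤ × ℤ}
    (ha : ∀ m : ℤ, l (m • a0) = m • a0 + m • D.s) (hla : ∀ m : ℤ, D.l (m • a0) = -m)
    (pos : ∀ {k : ℕ} (A : Fin k → LIns) (cc : Fin k → ℂ), (∀ i, LI {q | 0 ≤ D.l q} (A i).1) →
      0 ≤ (∑ i, ∑ j, (starRingEnd ℂ) (cc i) * cc j * om (θ (A i) * A j).1).re) :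
    Sys.Refl (sysOm om) D (fun m A => LIns.sh (m • D.s) (θ A)) where
  mul m A B := by
    show LIns.sh (m • D.s) (θ (A * B)) = _
    rw [hR.mul, LIns.sh_mul]
  one m := by
    show LIns.sh (m • D.s) (θ 1) = 1
    rw [hR.one, LIns.sh_one]
  θθ m A := by
    show LIns.sh (m • D.s) (θ (LIns.sh (m • D.s) (θ A))) = A
    rw [hR.sh, hls, LIns.sh_sh, hR.θθ, add_neg_cancel, LIns.sh_zero]
  add m n A := by
    show LIns.sh ((m + n) • D.s) (θ A) = LIns.sh (n • D.s) (LIns.sh (m • D.s) (θ A))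
    rw [LIns.sh_sh, add_smul, add_comm]
  sh m n A := by
    show LIns.sh (m • D.s) (θ (LIns.sh (n • D.s) A)) =
      LIns.sh (-(n • D.s)) (LIns.sh (m • D.s) (θ A))
    rw [hR.sh, hls, LIns.sh_sh, LIns.sh_sh, add_comm]
  loc {m K A} hA := by
    have h1 : LI K A.1 := hA
    have h2 := (hR.loc h1).shift (m • D.s)
    refine h2.mono fun q hq => ?_
    have h3 : l (q - m • D.s) ∈ K := hq
    rw [hρ] at h3
    exact h3
  conj m A := by
    show om ((θ A).1.shift (m • D.s)) = (starRingEnd ℂ) (om A.1)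
    rw [h.shift (θ A).2, hR.conj]
  pos m k A cc hA := by
    have h1 : ∀ i, LI {q | 0 ≤ D.l q} (LIns.sh (m • a0) (A i)).1 := by
      intro i
      have h2 : LI {q | m ≤ D.l q} (A i).1 := hA i
      refine (h2.shift (m • a0)).mono fun q hq => ?_
      have h3 : m ≤ D.l (q - m • a0) := hq
      have h4 := hD.l_add (q - m • a0) (m • a0)
      rw [sub_add_cancel, hla] at h4
      show 0 ≤ D.l q
      omega
    have h2 := pos (fun i => LIns.sh (m • a0) (A i)) cc h1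
    refine h2.trans (le_of_eq ?_)
    congr 1
    refine Finset.sum_congr rfl fun i _ => Finset.sum_congr rfl fun j _ => ?_
    congr 1
    show om (θ (LIns.sh (m • a0) (A i)) * LIns.sh (m • a0) (A j)).1 =
      om (LIns.sh (m • D.s) (θ (A i)) * A j).1
    rw [hR.sh, ha, ← LIns.sh_sh, ← LIns.sh_mul]
    exact h.shift (LIns.sh (m • D.s) (θ (A i)) * A j).2 (m • a0)

theorem smul_pair (m : ℤ) (a b : ℤ) : m • ((a, b) : ℤ × ℤ) = (m * a, m * b) := rfl

theorem IsOm.refl_X (h : IsOm c om) (hc : 0 ≤ c) :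
    Sys.Refl (sysOm om) gX (fun m A => LIns.sh (m • gX.s) (LIns.th rX_lin A)) := by
  refine refl_of h (h.rfl_X hc) gX_ok (a0 := (-1, 0)) ?_ ?_ ?_ ?_ (fun A cc hA => h.pos_X hc A cc hA)
  · intro m
    show (-(m * 2), m * 0) = -(m * 2, m * 0)
    simp
  · intro m q
    show (-(q.1 - m * 2), q.2 - m * 0) = (2 * m - q.1, q.2)
    apply Prod.ext
    · show -(q.1 - m * 2) = 2 * m - q.1
      ring
    · show q.2 - m * 0 = q.2
      ring
  · intro m
    show (-(m * -1), m * 0) = (m * -1 + m * 2, m * 0 + m * 0)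
    apply Prod.ext
    · show -(m * -1) = m * -1 + m * 2
      ring
    · show m * 0 = m * 0 + m * 0
      ring
  · intro m
    show m * -1 = -m
    ring

theorem IsOm.refl_D (h : IsOm c om) (hc : 1 ≤ c) :
    Sys.Refl (sysOm om) gD (fun m A => LIns.sh (m • gD.s) (LIns.th rD_lin A)) := by
  refine refl_of h (h.rfl_D (zero_le_one.trans hc)) gD_ok (a0 := (-1, 0)) ?_ ?_ ?_ ?_
    (fun A cc hA => h.pos_D hc A cc hA)
  · intro m
    show (m * -1, m * 1) = -(m * 1, m * -1)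
    apply Prod.ext
    · show m * -1 = -(m * 1)
      ring
    · show m * 1 = -(m * -1)
      ring
  · intro m q
    show (q.2 - m * -1, q.1 - m * 1) = (q.2 + m, q.1 - m)
    apply Prod.ext
    · show q.2 - m * -1 = q.2 + m
      ring
    · show q.1 - m * 1 = q.1 - m
      ring
  · intro m
    show (m * 0, m * -1) = (m * -1 + m * 1, m * 0 + m * -1)
    apply Prod.ext
    · show m * 0 = m * -1 + m * 1
      ring
    · show m * -1 = m * 0 + m * -1
      ring
  · intro m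
    show m * -1 - m * 0 = -m
    ring

/-- positivity for a conjugated reflection -/
theorem pos_conj {l' : ℤ × ℤ → ℤ × ℤ} {θ φ : LIns → LIns} (h' : Rfl om l' φ)
    {K K' : Set (ℤ × ℤ)} (hK : ∀ q, l' q ∈ K' → q ∈ K)
    (pos : ∀ {k : ℕ} (A : Fin k → LIns) (cc : Fin k → ℂ), (∀ i, LI K (A i).1) →
      0 ≤ (∑ i, ∑ j, (starRingEnd ℂ) (cc i) * cc j * om (θ (A i) * A j).1).re)
    {k : ℕ} (A : Fin k → LIns) (cc : Fin k → ℂ) (hA : ∀ i, LI K' (A i).1) :
    0 ≤ (∑ i, ∑ j, (starRingEnd ℂ) (cc i) * cc j * om (φ (θ (φ (A i))) * A j).1).re := by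
  have h1 := pos (fun i => φ (A i)) (fun i => (starRingEnd ℂ) (cc i))
    (fun i => (h'.loc (hA i)).mono hK)
  rw [← Complex.conj_re] at h1
  refine h1.trans (le_of_eq ?_)
  congr 1
  rw [map_sum]
  refine Finset.sum_congr rfl fun i _ => ?_
  rw [map_sum]
  refine Finset.sum_congr rfl fun j _ => ?_
  rw [map_mul, map_mul, Complex.conj_conj, Complex.conj_conj, ← h'.conj, h'.mul, h'.θθ]

/-- positivity below the line from positivity above the line -/
theorem pos_low {l : ℤ × ℤ → ℤ × ℤ} {θ : LIns → LIns} (hR : Rfl om l θ)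
    {K K' : Set (ℤ × ℤ)} (hK : ∀ q, l q ∈ K' → q ∈ K)
    (pos : ∀ {k : ℕ} (A : Fin k → LIns) (cc : Fin k → ℂ), (∀ i, LI K (A i).1) →
      0 ≤ (∑ i, ∑ j, (starRingEnd ℂ) (cc i) * cc j * om (θ (A i) * A j).1).re)
    {k : ℕ} (A : Fin k → LIns) (cc : Fin k → ℂ) (hA : ∀ i, LI K' (A i).1) :
    0 ≤ (∑ i, ∑ j, (starRingEnd ℂ) (cc i) * cc j * om (θ (A i) * A j).1).re := by
  have h1 := pos (fun i => θ (A i)) (fun i => (starRingEnd ℂ) (cc i))
    (fun i => (hR.loc (hA i)).mono hK)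
  refine h1.trans (le_of_eq ?_)
  congr 1
  rw [Finset.sum_comm]
  refine Finset.sum_congr rfl fun i _ => Finset.sum_congr rfl fun j _ => ?_
  rw [Complex.conj_conj, hR.θθ, mul_comm (A j), mul_comm (cc j)]

/-- reflection in the rows -/
def thY (A : LIns) : LIns := LIns.th rD_lin (LIns.th rX_lin (LIns.th rD_lin A))

/-- reflection in the antidiagonals -/
def thA (A : LIns) : LIns := LIns.th rX_lin (LIns.th rD_lin (LIns.th rX_lin A))

theorem IsOm.refl_Y (h : IsOm c om) (hc : 0 ≤ c) :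
    Sys.Refl (sysOm om) gY (fun m A => LIns.sh (m • gY.s) (thY A)) := by
  refine refl_of h ((h.rfl_X hc).conjg (h.rfl_D hc)) gY_ok (a0 := (0, -1)) ?_ ?_ ?_ ?_
    (fun A cc hA => pos_conj (h.rfl_D hc) (K := {q | 0 ≤ q.1}) ?_
      (fun A cc hA => h.pos_X hc A cc hA) A cc hA)
  · intro m
    show (m * 0, -(m * 2)) = -(m * 0, m * 2)
    simp
  · intro m q
    show (q.1 - m * 0, -(q.2 - m * 2)) = (q.1, 2 * m - q.2)
    apply Prod.ext
    · show q.1 - m * 0 = q.1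
      ring
    · show -(q.2 - m * 2) = 2 * m - q.2
      ring
  · intro m
    show (m * 0, -(m * -1)) = (m * 0 + m * 0, m * -1 + m * 2)
    apply Prod.ext
    · show m * 0 = m * 0 + m * 0
      ring
    · show -(m * -1) = m * -1 + m * 2
      ring
  · intro m
    show m * -1 = -m
    ring
  · intro q hq
    exact hq

theorem IsOm.refl_A (h : IsOm c om) (hc : 1 ≤ c) :
    Sys.Refl (sysOm om) gA (fun m A => LIns.sh (m • gA.s) (thA A)) := by
  have hc0 : 0 ≤ c := zero_le_one.trans hc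
  have hlow : ∀ {k : ℕ} (A : Fin k → LIns) (cc : Fin k → ℂ),
      (∀ i, LI {q | q.1 - q.2 ≤ 0} (A i).1) →
      0 ≤ (∑ i, ∑ j, (starRingEnd ℂ) (cc i) * cc j *
        om (LIns.th rD_lin (A i) * A j).1).re := fun A cc hA =>
    pos_low (h.rfl_D hc0) (K := {q | 0 ≤ q.1 - q.2})
      (fun q (hq : q.2 - q.1 ≤ 0) => by show 0 ≤ q.1 - q.2; omega)
      (fun A cc hA => h.pos_D hc A cc hA) A cc hA
  refine refl_of h ((h.rfl_D hc0).conjg (h.rfl_X hc0)) gA_ok (a0 := (-1, 0)) ?_ ?_ ?_ ?_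
    (fun A cc hA => pos_conj (h.rfl_X hc0) (K := {q | q.1 - q.2 ≤ 0}) ?_ hlow A cc hA)
  · intro m
    show (-(m * 1), -(m * 1)) = -(m * 1, m * 1)
    rfl
  · intro m q
    show (-(q.2 - m * 1), -(q.1 - m * 1)) = (m - q.2, m - q.1)
    apply Prod.ext
    · show -(q.2 - m * 1) = m - q.2
      ring
    · show -(q.1 - m * 1) = m - q.1
      ring
  · intro m
    show (-(m * 0), -(m * -1)) = (m * -1 + m * 1, m * 0 + m * 1)
    apply Prod.ext
    · show -(m * 0) = m * -1 + m * 1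
      ring
    · show -(m * -1) = m * 0 + m * 1
      ring
  · intro m
    show m * -1 + m * 0 = -m
    ring
  · intro q (hq : 0 ≤ -q.1 + q.2)
    show q.1 - q.2 ≤ 0
    omega

end Vale.Agent.P167.H592
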