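import Vale.Agent.P167.H592.Bdd
import Vale.Agent.P167.H199.OmEx

/-!
# P167, block K1: the system of local insertions of critical percolation
-/

namespace Vale.Agent.P167.H592

open Finset Filter Topology MeasureTheory
open Vale.Agent.P152 (Edge Ori vw wt unroll)
open Vale.Agent.P167.H825
open Vale.Agent.P167.H199 (phF Xc isOm_phF exists_isOm abs_Xc_le)

variable {om : Ins → ℂ}

theorem one_le_sqrt3 : (1 : ℝ) ≤ √3 := by
  rw [show (1 : ℝ) = √1 by simp]
  exact Real.sqrt_le_sqrt (by norm_num)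

theorem IsOm.norm_one (h : IsOm (√3) om) (S : Finset (Edge (ℤ × ℤ))) :
    ‖om ⟨S, fun _ => 1⟩‖ ≤ 4 ^ S.card := by
  have h1 : phF S (fun _ _ => 0) = fun _ => 1 := by
    funext ω
    simp [phF]
  have h2 := isOm_phF h (le_refl S) (a := fun _ _ => 0) (fun _ _ _ => rfl)
  rw [h1] at h2
  rw [h2, Complex.norm_real]
  have h3 := MeasureTheory.norm_integral_le_of_norm_le_const (μ := μ)
    (f := fun ω => Xc S (fun _ _ => 0) ω) (C := 2 ^ (S.card + S.card))
    (Filter.Eventually.of_forall fun ω => by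
      rw [Real.norm_eq_abs]
      exact abs_Xc_le ω (fun _ _ _ => rfl))
  refine h3.trans (le_of_eq ?_)
  rw [probReal_univ, mul_one, ← two_mul, pow_mul]
  norm_num

theorem IsOm.ok (h : IsOm (√3) om) : (sysOm om).Ok :=
  h.sysOk (zero_le_one.trans one_le_sqrt3) h.norm_one

end Vale.Agent.P167.H592
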