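import Vale.Agent.P167.H592.Mon

/-!
# P167, block K1: translations and reflections on the tori and passage to the plane
-/

namespace Vale.Agent.P167.H592

open Finset Filter Topology
open Vale.Agent.P152 (Edge Ori vw wt unroll)

section tor

set_option linter.unusedSectionVars false

variable {V : Type} [AddCommGroup V] [Fintype V] [DecidableEq V] {c : ℝ} {g1 g2 : V}

/-- translation of the configurations of the torus -/
def shV (x : V) (ω : HO V) : HO V := fun e b => ω (Sum.map (fun v => v + x) (fun v => v + x) e) b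

def shVE (x : V) : HO V ≃ HO V where
  toFun := shV x
  invFun := shV (-x)
  left_inv ω := by
    funext e b
    rcases e with v | v
    · show ω (Sum.inl (v + -x + x)) b = _
      rw [neg_add_cancel_right]
    · show ω (Sum.inr (v + -x + x)) b = _
      rw [neg_add_cancel_right]
  right_inv ω := by
    funext e b
    rcases e with v | v
    · show ω (Sum.inl (v + x + -x)) b = _
      rw [add_neg_cancel_right]
    · show ω (Sum.inr (v + x + -x)) b = _
      rw [add_neg_cancel_right]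

theorem hw_shV (x : V) (ω : HO V) : hw c g1 g2 (shV x ω) = hw c g1 g2 ω := by
  have h : ∀ v, hvw c g1 g2 (shV x ω) v = hvw c g1 g2 ω (v + x) := by
    intro v
    show vw c (ω (Sum.inl (v - g1 + x)) true) (ω (Sum.inl (v + x)) false)
      (ω (Sum.inr (v - g2 + x)) true) (ω (Sum.inr (v + x)) false) = _
    rw [sub_add_eq_add_sub, sub_add_eq_add_sub]
    rfl
  unfold hw
  rw [Finset.prod_congr rfl fun v _ => h v]
  exact Equiv.prod_comp (Equiv.addRight x) (fun v => hvw c g1 g2 ω v)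

theorem em_add (a b : ℤ × ℤ) : em g1 g2 (a + b) = em g1 g2 a + em g1 g2 b := by
  show (a.1 + b.1) • g1 + (a.2 + b.2) • g2 = a.1 • g1 + a.2 • g2 + (b.1 • g1 + b.2 • g2)
  rw [add_smul, add_smul]
  abel

theorem emE_shE (a : ℤ × ℤ) (e : Edge (ℤ × ℤ)) : emE g1 g2 (shE a e) =
    Sum.map (fun v => v + em g1 g2 a) (fun v => v + em g1 g2 a) (emE g1 g2 e) := by
  rcases e with v | v
  · show Sum.inl (em g1 g2 (v + a)) = Sum.inl (em g1 g2 v + em g1 g2 a)
    rw [em_add]
  · show Sum.inr (em g1 g2 (v + a)) = Sum.inr (em g1 g2 v + em g1 g2 a)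
    rw [em_add]

theorem zv_shift (a : ℤ × ℤ) (A : Ins) :
    zv c g1 g2 (A.shift a).S (A.shift a).F = zv c g1 g2 A.S A.F := by
  classical
  unfold zv
  rw [← Equiv.sum_comp (shVE (em g1 g2 a)) (fun ω : HO V =>
    if NoDef (A.S.image (emE g1 g2)) ω then (hw c g1 g2 ω : ℂ) * A.F (unH g1 g2 ω) else 0)]
  refine Finset.sum_congr rfl fun ω _ => ?_
  have h1 : NoDef ((A.shift a).S.image (emE g1 g2)) ω ↔
      NoDef (A.S.image (emE g1 g2)) (shV (em g1 g2 a) ω) := by
    have hinj : Function.Injective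
        (Sum.map (fun v : V => v + em g1 g2 a) (fun v : V => v + em g1 g2 a)) :=
      Sum.map_injective.2 ⟨add_left_injective _, add_left_injective _⟩
    have hsur : Function.Surjective
        (Sum.map (fun v : V => v + em g1 g2 a) (fun v : V => v + em g1 g2 a)) :=
      Sum.map_surjective.2 ⟨fun v => ⟨v - em g1 g2 a, sub_add_cancel _ _⟩,
        fun v => ⟨v - em g1 g2 a, sub_add_cancel _ _⟩⟩
    have hmem : ∀ e : Edge V, Sum.map (fun v : V => v + em g1 g2 a) (fun v : V => v + em g1 g2 a) e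
        ∈ (A.shift a).S.image (emE g1 g2) ↔ e ∈ A.S.image (emE g1 g2) := by
      intro e
      constructor
      · intro h
        obtain ⟨e', he', h'⟩ := Finset.mem_image.1 h
        obtain ⟨e'', he'', rfl⟩ := Finset.mem_image.1 he'
        rw [emE_shE] at h'
        exact Finset.mem_image.2 ⟨e'', he'', hinj h'⟩
      · intro h
        obtain ⟨e', he', rfl⟩ := Finset.mem_image.1 h
        exact Finset.mem_image.2 ⟨shE a e', Finset.mem_image_of_mem _ he', emE_shE a e'⟩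
    constructor
    · intro h e he
      exact h _ fun h' => he ((hmem e).1 h')
    · intro h e he
      obtain ⟨e', rfl⟩ := hsur e
      exact h e' fun h' => he ((hmem e').2 h')
  have h2 : shH a (unH g1 g2 ω) = unH g1 g2 (shV (em g1 g2 a) ω) := by
    funext e b
    show ω (emE g1 g2 (shE a e)) b = ω (Sum.map _ _ (emE g1 g2 e)) b
    rw [emE_shE]
  show (if NoDef ((A.shift a).S.image (emE g1 g2)) ω then
    (hw c g1 g2 ω : ℂ) * A.F (shH a (unH g1 g2 ω)) else 0) = if NoDef (A.S.image (emE g1 g2))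
      (shV (em g1 g2 a) ω) then (hw c g1 g2 (shV (em g1 g2 a) ω) : ℂ) *
        A.F (unH g1 g2 (shV (em g1 g2 a) ω)) else 0
  rw [hw_shV, h2]
  by_cases h : NoDef (A.S.image (emE g1 g2)) (shV (em g1 g2 a) ω)
  · rw [if_pos (h1.2 h), if_pos h]
  · rw [if_neg fun h' => h (h1.1 h'), if_neg h]

/-- The action of a reflection is a bijection. -/
def Rf.Ok.equiv {V : Type} {R : Rf V} (h : R.Ok) : HO V ≃ HO V where
  toFun := R.act
  invFun := R.act
  left_inv := h.act_act
  right_inv := h.act_act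

theorem zv_th {R : Rf V} (hR : R.Ok) {P : Rf (ℤ × ℤ)}
    (hun : ∀ ω : HO V, unH g1 g2 (R.act ω) = P.act (unH g1 g2 ω))
    (hem : ∀ e, emE g1 g2 (P.ρ e) = R.ρ (emE g1 g2 e)) {ν : V → V} (hν : ∀ v, ν (ν v) = v)
    (hw' : ∀ (ω : HO V) (v : V), hvw c g1 g2 (R.act ω) v = hvw c g1 g2 ω (ν v)) (A : Ins) :
    zv c g1 g2 (P.th A).S (P.th A).F = (starRingEnd ℂ) (zv c g1 g2 A.S A.F) := by
  classical
  have hhw : ∀ ω : HO V, hw c g1 g2 (R.act ω) = hw c g1 g2 ω := by
    intro ω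
    unfold hw
    rw [Finset.prod_congr rfl fun v _ => hw' ω v]
    exact Equiv.prod_comp (Function.Involutive.toPerm ν hν) (fun v => hvw c g1 g2 ω v)
  unfold zv
  rw [map_sum, ← Equiv.sum_comp hR.equiv]
  refine Finset.sum_congr rfl fun ω _ => ?_
  have h1 : NoDef ((P.th A).S.image (emE g1 g2)) (R.act ω) ↔
      NoDef (A.S.image (emE g1 g2)) ω := by
    have hmem : ∀ e : Edge V, R.ρ e ∈ (P.th A).S.image (emE g1 g2) ↔
        e ∈ A.S.image (emE g1 g2) := by
      intro e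
      show R.ρ e ∈ (A.S.image P.ρ).image (emE g1 g2) ↔ _
      rw [Finset.image_image]
      constructor
      · intro h
        obtain ⟨e', he', h'⟩ := Finset.mem_image.1 h
        refine Finset.mem_image.2 ⟨e', he', ?_⟩
        have h'' : R.ρ (emE g1 g2 e') = R.ρ e := by rw [← hem]; exact h'
        rw [← hR.ρρ e, ← h'', hR.ρρ]
      · intro h
        obtain ⟨e', he', rfl⟩ := Finset.mem_image.1 h
        exact Finset.mem_image.2 ⟨e', he', hem e'⟩
    constructor
    · intro h e he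
      have := h (R.ρ e) fun h' => he ((hmem e).1 h')
      rwa [match_act, hR.ρρ] at this
    · intro h e he
      rw [match_act]
      refine h _ fun h' => he ?_
      have := (hmem (R.ρ e)).2 h'
      rwa [hR.ρρ] at this
  show (if NoDef ((P.th A).S.image (emE g1 g2)) (R.act ω) then
    (hw c g1 g2 (R.act ω) : ℂ) * (starRingEnd ℂ) (A.F (P.act (unH g1 g2 (R.act ω)))) else 0) =
    (starRingEnd ℂ) (if NoDef (A.S.image (emE g1 g2)) ω then
      (hw c g1 g2 ω : ℂ) * A.F (unH g1 g2 ω) else 0)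
  rw [hhw, ← hun, hR.act_act]
  by_cases h : NoDef (A.S.image (emE g1 g2)) ω
  · rw [if_pos (h1.2 h), if_pos h, map_mul, Complex.conj_ofReal]
  · rw [if_neg fun h' => h (h1.1 h'), if_neg h, map_zero]

theorem vw_nonneg {c : ℝ} (hc : 0 ≤ c) (l r b a : Bool) : 0 ≤ vw c l r b a := by
  unfold vw
  split_ifs <;> norm_num [hc]

theorem zv_one_real (hc : 0 ≤ c) : ∃ r : ℝ, 0 ≤ r ∧ zv c g1 g2 ∅ (fun _ => 1) = (r : ℂ) := by
  classical
  refine ⟨∑ ω : HO V, if NoDef ((∅ : Finset (Edge (ℤ × ℤ))).image (emE g1 g2)) ω then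
    hw c g1 g2 ω else 0, ?_, ?_⟩
  · refine Finset.sum_nonneg fun ω _ => ?_
    split_ifs
    · exact Finset.prod_nonneg fun v _ => vw_nonneg hc _ _ _ _
    · exact le_rfl
  · unfold zv
    push_cast
    refine Finset.sum_congr rfl fun ω _ => ?_
    split_ifs <;> simp

end tor

theorem tv_th_X {c : ℝ} (hc : 0 ≤ c) (K L : ℕ) [NeZero K] [NeZero L] (A : Ins) :
    tv (V := ZMod (2 * K) × ZMod L) c (1, 0) (0, 1) ((rX ℤ ℤ).th A).S ((rX ℤ ℤ).th A).F =
      (starRingEnd ℂ) (tv (V := ZMod (2 * K) × ZMod L) c (1, 0) (0, 1) A.S A.F) := by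
  obtain ⟨r, -, hr⟩ := zv_one_real (V := ZMod (2 * K) × ZMod L) (g1 := (1, 0)) (g2 := (0, 1)) hc
  have h1 : ∀ v : ZMod (2 * K) × ZMod L,
      ((1 - ((1 - v.1, v.2) : ZMod (2 * K) × ZMod L).1, v.2) : ZMod (2 * K) × ZMod L) = v := by
    intro v
    rw [sub_sub_cancel]
  have h2 : ∀ (ω : HO (ZMod (2 * K) × ZMod L)) (v : ZMod (2 * K) × ZMod L),
      hvw c (1, 0) (0, 1) ((rX (ZMod (2 * K)) (ZMod L)).act ω) v =
        hvw c (1, 0) (0, 1) ω (1 - v.1, v.2) := fun ω v => hvw_rX c ω v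
  have h3 := zv_th (c := c) (rX_ok (ZMod (2 * K)) (ZMod L)) unH_rX emE_rX
    (ν := fun v => (1 - v.1, v.2)) h1 h2 A
  unfold tv
  rw [h3, map_div₀, hr, Complex.conj_ofReal]

theorem tv_th_D {c : ℝ} (hc : 0 ≤ c) (K : ℕ) [NeZero K] (A : Ins) :
    tv (V := ZMod (2 * K) × ZMod K) c (1, 0) (-1, 1) (rD.th A).S (rD.th A).F =
      (starRingEnd ℂ) (tv (V := ZMod (2 * K) × ZMod K) c (1, 0) (-1, 1) A.S A.F) := by
  obtain ⟨r, -, hr⟩ := zv_one_real (V := ZMod (2 * K) × ZMod K) (g1 := (1, 0)) (g2 := (-1, 1)) hc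
  unfold tv
  rw [zv_th (rDg_ok nuT_nuT) unH_rD emE_rD nuT_nuT (fun ω v => hvw_rDg nuT_g1 nuT_g2 c ω v),
    map_div₀, hr, Complex.conj_ofReal]

section lim

variable {c : ℝ} {om : Ins → ℂ}

theorem IsOm.tendsto_std (h : IsOm c om) {A : Ins} (hA : LI Set.univ A) :
    Tendsto (fun n : ℕ => tv (V := ZMod (2 * (2 * n + 2)) × ZMod (2 * n + 2)) c
      (1, 0) (0, 1) A.S A.F) atTop (𝓝 (om A)) := by
  rw [Metric.tendsto_atTop]
  intro ε hε
  obtain ⟨N, hN⟩ := h.std A hA (ε / 2) (half_pos hε)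
  refine ⟨N, fun n hn => ?_⟩
  rw [dist_eq_norm]
  refine (hN _ _ ⟨2 * n + 2, by ring⟩ ⟨n + 1, by ring⟩ (by omega) (by omega)).trans_lt ?_
  exact half_lt_self hε

theorem IsOm.tendsto_skew (h : IsOm c om) {A : Ins} (hA : LI Set.univ A) :
    Tendsto (fun n : ℕ => tv (V := ZMod (2 * (2 * n + 2)) × ZMod (2 * n + 2)) c
      (1, 0) (-1, 1) A.S A.F) atTop (𝓝 (om A)) := by
  rw [Metric.tendsto_atTop]
  intro ε hε
  obtain ⟨N, hN⟩ := h.skew A hA (ε / 2) (half_pos hε)
  refine ⟨N, fun n hn => ?_⟩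
  rw [dist_eq_norm]
  refine (hN _ _ ⟨2 * n + 2, by ring⟩ ⟨n + 1, by ring⟩ (by omega) (by omega)).trans_lt ?_
  exact half_lt_self hε

theorem IsOm.shift (h : IsOm c om) {A : Ins} (hA : LI Set.univ A) (a : ℤ × ℤ) :
    om (A.shift a) = om A := by
  have hA' : LI Set.univ (A.shift a) := (hA.shift a).mono (Set.subset_univ _)
  refine tendsto_nhds_unique (h.tendsto_std hA') ?_
  have h1 := h.tendsto_std hA
  refine h1.congr fun n => ?_
  unfold tv
  rw [zv_shift]

theorem IsOm.th_X (h : IsOm c om) (hc : 0 ≤ c) {A : Ins} (hA : LI Set.univ A) :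
    om ((rX ℤ ℤ).th A) = (starRingEnd ℂ) (om A) := by
  have hA' : LI Set.univ ((rX ℤ ℤ).th A) := (rX_lin.LI hA).mono (Set.subset_univ _)
  refine tendsto_nhds_unique (h.tendsto_std hA') ?_
  have h1 := (Complex.continuous_conj.tendsto (om A)).comp (h.tendsto_std hA)
  exact h1.congr fun n => (tv_th_X hc (2 * n + 2) (2 * n + 2) A).symm

theorem IsOm.th_D (h : IsOm c om) (hc : 0 ≤ c) {A : Ins} (hA : LI Set.univ A) :
    om (rD.th A) = (starRingEnd ℂ) (om A) := by
  have hA' : LI Set.univ (rD.th A) := (rD_lin.LI hA).mono (Set.subset_univ _)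
  refine tendsto_nhds_unique (h.tendsto_skew hA') ?_
  have h1 := (Complex.continuous_conj.tendsto (om A)).comp (h.tendsto_skew hA)
  exact h1.congr fun n => (tv_th_D hc (2 * n + 2) A).symm

/-- common support of finitely many insertions -/
theorem common_supp {K : Set (ℤ × ℤ)} {k : ℕ} {A : Fin k → Ins} (hA : ∀ i, LI K (A i)) :
    ∃ Λ : Finset (Edge (ℤ × ℤ)), (∀ e ∈ Λ, e ∈ EdT K) ∧ (∀ i, (A i).S ⊆ Λ) ∧
      ∀ i, ∀ ω ω' : HO (ℤ × ℤ), (∀ e ∈ Λ, ω e = ω' e) → (A i).F ω = (A i).F ω' := by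
  classical
  choose Λ h1 h2 h3 using hA
  refine ⟨univ.biUnion Λ, ?_, ?_, ?_⟩
  · intro e he
    obtain ⟨i, -, hi⟩ := Finset.mem_biUnion.1 he
    exact h1 i e hi
  · intro i
    exact (h2 i).trans (Finset.subset_biUnion_of_mem Λ (mem_univ i))
  · intro i ω ω' h
    exact h3 i ω ω' fun e he => h e (Finset.mem_biUnion.2 ⟨i, mem_univ i, he⟩)

/-- positivity is preserved by division and limits -/
theorem pos_limit {k : ℕ} (B : Fin k → Fin k → Ins) (cc : Fin k → ℂ)
    {u : ℕ → Fin k → Fin k → ℂ} {r : ℕ → ℝ} (hr : ∀ n, 0 ≤ r n)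
    (hlim : ∀ i j, Tendsto (fun n => u n i j / (r n : ℂ)) atTop (𝓝 (om (B i j))))
    (hpos : ∀ᶠ n in atTop, 0 ≤ (∑ i, ∑ j, (starRingEnd ℂ) (cc i) * cc j * u n i j).re) :
    0 ≤ (∑ i, ∑ j, (starRingEnd ℂ) (cc i) * cc j * om (B i j)).re := by
  have h1 : Tendsto (fun n => (∑ i, ∑ j, (starRingEnd ℂ) (cc i) * cc j *
      (u n i j / (r n : ℂ))).re) atTop
      (𝓝 ((∑ i, ∑ j, (starRingEnd ℂ) (cc i) * cc j * om (B i j)).re)) := by
    refine (Complex.continuous_re.tendsto _).comp ?_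
    exact tendsto_finsetSum _ fun i _ => tendsto_finsetSum _ fun j _ =>
      (hlim i j).const_mul _
  refine ge_of_tendsto h1 ?_
  filter_upwards [hpos] with n hn
  have h2 : ∑ i, ∑ j, (starRingEnd ℂ) (cc i) * cc j * (u n i j / (r n : ℂ)) =
      (∑ i, ∑ j, (starRingEnd ℂ) (cc i) * cc j * u n i j) * (((r n)⁻¹ : ℝ) : ℂ) := by
    rw [Finset.sum_mul]
    refine Finset.sum_congr rfl fun i _ => ?_
    rw [Finset.sum_mul]
    refine Finset.sum_congr rfl fun j _ => ?_
    push_cast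
    rw [div_eq_mul_inv]
    ring
  rw [h2, Complex.re_mul_ofReal]
  exact mul_nonneg hn (inv_nonneg.2 (hr n))

end lim

end Vale.Agent.P167.H592
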