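import Vale.Agent.P167.H592.TorD

/-!
# P167, block K1: the monoid of local insertions, translations and reflections
-/

namespace Vale.Agent.P167.H592

open Finset
open Vale.Agent.P152 (Edge Ori vw wt unroll)

/-- translation of the edges -/
def shE (a : ℤ × ℤ) : Edge (ℤ × ℤ) → Edge (ℤ × ℤ) := Sum.map (fun v => v + a) (fun v => v + a)

/-- translation of the configurations -/
def shH (a : ℤ × ℤ) (ω : HO (ℤ × ℤ)) : HO (ℤ × ℤ) := fun e b => ω (shE a e) b

/-- translation of an insertion -/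
def Ins.shift (a : ℤ × ℤ) (A : Ins) : Ins := ⟨A.S.image (shE a), fun ω => A.F (shH a ω)⟩

/-- reflection of an insertion -/
def Rf.th (P : Rf (ℤ × ℤ)) (A : Ins) : Ins :=
  ⟨A.S.image P.ρ, fun ω => (starRingEnd ℂ) (A.F (P.act ω))⟩

theorem shE_shE (a b : ℤ × ℤ) (e : Edge (ℤ × ℤ)) : shE a (shE b e) = shE (a + b) e := by
  rcases e with v | v
  · show Sum.inl (v + b + a) = Sum.inl (v + (a + b))
    rw [add_assoc, add_comm b a]
  · show Sum.inr (v + b + a) = Sum.inr (v + (a + b))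
    rw [add_assoc, add_comm b a]

theorem shE_zero (e : Edge (ℤ × ℤ)) : shE 0 e = e := by
  rcases e with v | v
  · show Sum.inl (v + 0) = Sum.inl v
    rw [add_zero]
  · show Sum.inr (v + 0) = Sum.inr v
    rw [add_zero]

theorem shH_shH (a b : ℤ × ℤ) (ω : HO (ℤ × ℤ)) : shH a (shH b ω) = shH (a + b) ω := by
  funext e c
  show ω (shE b (shE a e)) c = ω (shE (a + b) e) c
  rw [shE_shE, add_comm]

theorem shH_zero (ω : HO (ℤ × ℤ)) : shH 0 ω = ω := by
  funext e c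
  show ω (shE 0 e) c = _
  rw [shE_zero]

theorem mem_EdT_univ (e : Edge (ℤ × ℤ)) : e ∈ EdT Set.univ := by
  rcases e with v | v
  · intro i j _ _ _ _
    exact Set.mem_univ _
  · intro i j _ _ _ _
    exact Set.mem_univ _

theorem EdT_mono {K K' : Set (ℤ × ℤ)} (h : K ⊆ K') : EdT K ⊆ EdT K' := by
  rintro (v | v) hv
  · exact fun i j h1 h2 h3 h4 => h (hv i j h1 h2 h3 h4)
  · exact fun i j h1 h2 h3 h4 => h (hv i j h1 h2 h3 h4)

theorem EdT_shE {K : Set (ℤ × ℤ)} (a : ℤ × ℤ) {e : Edge (ℤ × ℤ)} (he : e ∈ EdT K) :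
    shE a e ∈ EdT {q | q - a ∈ K} := by
  rcases e with v | v
  · intro i j h1 h2 h3 h4
    have := he i j h1 h2 h3 h4
    show ((v + a).1 + i, (v + a).2 + j) - a ∈ K
    convert this using 1
    apply Prod.ext <;> simp <;> ring
  · intro i j h1 h2 h3 h4
    have := he i j h1 h2 h3 h4
    show ((v + a).1 + i, (v + a).2 + j) - a ∈ K
    convert this using 1
    apply Prod.ext <;> simp <;> ring

theorem LI.mono {K K' : Set (ℤ × ℤ)} {A : Ins} (hA : LI K A) (h : K ⊆ K') : LI K' A := by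
  obtain ⟨Λ, h1, h2, h3⟩ := hA
  exact ⟨Λ, fun e he => EdT_mono h (h1 e he), h2, h3⟩

theorem LI.univ {K : Set (ℤ × ℤ)} {A : Ins} (hA : LI K A) : LI Set.univ A :=
  hA.mono (Set.subset_univ _)

theorem LI.shift {K : Set (ℤ × ℤ)} {A : Ins} (a : ℤ × ℤ) (hA : LI K A) :
    LI {q | q - a ∈ K} (A.shift a) := by
  obtain ⟨Λ, h1, h2, h3⟩ := hA
  refine ⟨Λ.image (shE a), ?_, Finset.image_subset_image h2, ?_⟩
  · intro e he
    obtain ⟨e', he', rfl⟩ := Finset.mem_image.1 he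
    exact EdT_shE a (h1 e' he')
  · intro ω ω' h
    refine h3 _ _ fun e he => ?_
    exact h _ (Finset.mem_image_of_mem _ he)

/-- the product of insertions -/
def Ins.mul (A B : Ins) : Ins := ⟨A.S ∪ B.S, fun ω => A.F ω * B.F ω⟩

theorem LI.mul {K : Set (ℤ × ℤ)} {A B : Ins} (hA : LI K A) (hB : LI K B) : LI K (A.mul B) := by
  obtain ⟨Λ, h1, h2, h3⟩ := hA
  obtain ⟨Λ', h1', h2', h3'⟩ := hB
  refine ⟨Λ ∪ Λ', ?_, Finset.union_subset_union h2 h2', ?_⟩
  · intro e he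
    rcases Finset.mem_union.1 he with he | he
    · exact h1 e he
    · exact h1' e he
  · intro ω ω' h
    show A.F ω * B.F ω = A.F ω' * B.F ω'
    rw [h3 _ _ fun e he => h e (Finset.mem_union_left _ he),
      h3' _ _ fun e he => h e (Finset.mem_union_right _ he)]

theorem LI.one (K : Set (ℤ × ℤ)) : LI K ⟨∅, fun _ => 1⟩ :=
  ⟨∅, by simp, by simp, fun _ _ _ => rfl⟩

/-- A reflection with its linear part `l`. -/
structure Rf.Lin (P : Rf (ℤ × ℤ)) (l : ℤ × ℤ → ℤ × ℤ) : Prop where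
  ok : P.Ok
  ρ : ∀ a e, P.ρ (shE a e) = shE (l a) (P.ρ e)
  t : ∀ a e, P.t (shE a e) = P.t e
  s : ∀ a e, P.s (shE a e) = P.s e
  ll : ∀ a, l (l a) = a
  ed : ∀ {K : Set (ℤ × ℤ)} {e}, e ∈ EdT K → P.ρ e ∈ EdT {q | l q ∈ K}

theorem Rf.Lin.LI {P : Rf (ℤ × ℤ)} {l : ℤ × ℤ → ℤ × ℤ} (hP : P.Lin l) {K : Set (ℤ × ℤ)}
    {A : Ins} (hA : LI K A) : LI {q | l q ∈ K} (P.th A) := by
  obtain ⟨Λ, h1, h2, h3⟩ := hA
  refine ⟨Λ.image P.ρ, ?_, Finset.image_subset_image h2, ?_⟩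
  · intro e he
    obtain ⟨e', he', rfl⟩ := Finset.mem_image.1 he
    exact hP.ed (h1 e' he')
  · intro ω ω' h
    show (starRingEnd ℂ) (A.F (P.act ω)) = (starRingEnd ℂ) (A.F (P.act ω'))
    rw [h3 (P.act ω) (P.act ω') fun e he => ?_]
    funext b
    show xor _ (ω (P.ρ e) _) = xor _ (ω' (P.ρ e) _)
    rw [h (P.ρ e) (Finset.mem_image_of_mem _ he)]

theorem Rf.Lin.th_shift {P : Rf (ℤ × ℤ)} {l : ℤ × ℤ → ℤ × ℤ} (hP : P.Lin l) (a : ℤ × ℤ)
    (A : Ins) : P.th (A.shift a) = (P.th A).shift (l a) := by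
  apply Ins.ext
  · show (A.S.image (shE a)).image P.ρ = (A.S.image P.ρ).image (shE (l a))
    rw [Finset.image_image, Finset.image_image]
    refine Finset.image_congr fun e _ => ?_
    exact hP.ρ a e
  · funext ω
    show (starRingEnd ℂ) (A.F (shH a (P.act ω))) = (starRingEnd ℂ) (A.F (P.act (shH (l a) ω)))
    congr 2
    funext e b
    show xor (P.s (shE a e)) (ω (P.ρ (shE a e)) (xor (P.t (shE a e)) b)) =
      xor (P.s e) (ω (shE (l a) (P.ρ e)) (xor (P.t e) b))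
    rw [hP.s, hP.t, hP.ρ]

theorem Rf.Lin.th_th {P : Rf (ℤ × ℤ)} {l : ℤ × ℤ → ℤ × ℤ} (hP : P.Lin l) (A : Ins) :
    P.th (P.th A) = A := by
  apply Ins.ext
  · show (A.S.image P.ρ).image P.ρ = A.S
    rw [Finset.image_image]
    have : P.ρ ∘ P.ρ = id := funext fun e => hP.ok.ρρ e
    rw [this, Finset.image_id]
  · funext ω
    show (starRingEnd ℂ) ((starRingEnd ℂ) (A.F (P.act (P.act ω)))) = A.F ω
    rw [hP.ok.act_act, Complex.conj_conj]

theorem rX_lin : (rX ℤ ℤ).Lin (fun a => (-a.1, a.2)) where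
  ok := rX_ok _ _
  ρ a e := by
    rcases e with v | v
    · show Sum.inl (-(v.1 + a.1), v.2 + a.2) = Sum.inl (-v.1 + -a.1, v.2 + a.2)
      rw [neg_add]
    · show Sum.inr (1 - (v.1 + a.1), v.2 + a.2) = Sum.inr (1 - v.1 + -a.1, v.2 + a.2)
      rw [← sub_sub, sub_eq_add_neg (1 - v.1)]
  t a e := by rcases e with v | v <;> rfl
  s a e := by rcases e with v | v <;> rfl
  ll a := by
    show (- -a.1, a.2) = a
    rw [neg_neg]
  ed {K e} he := by
    rcases e with v | v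
    · intro i j h1 h2 h3 h4
      have := he (-i) j (by omega) (by omega) h3 h4
      show (-(-v.1 + i), v.2 + j) ∈ K
      rw [show -(-v.1 + i) = v.1 + -i by ring]
      exact this
    · intro i j h1 h2 h3 h4
      have := he (-1 - i) j (by omega) (by omega) h3 h4
      show (-(1 - v.1 + i), v.2 + j) ∈ K
      rw [show -(1 - v.1 + i) = v.1 + (-1 - i) by ring]
      exact this

theorem rD_lin : rD.Lin (fun a => (a.2, a.1)) where
  ok := rDg_ok fun v => rfl
  ρ a e := by rcases e with v | v <;> rfl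
  t a e := rfl
  s a e := rfl
  ll a := rfl
  ed {K e} he := by
    rcases e with v | v
    · intro i j h1 h2 h3 h4
      exact he j i h3 h4 h1 h2
    · intro i j h1 h2 h3 h4
      exact he j i h3 h4 h1 h2

/-- The local insertions. -/
def LIns : Type := {A : Ins // LI Set.univ A}

theorem LIns.ext' {A B : LIns} (h1 : A.1.S = B.1.S) (h2 : ∀ ω, A.1.F ω = B.1.F ω) : A = B :=
  Subtype.ext (Ins.ext h1 (funext h2))

instance : CommMonoid LIns where
  mul A B := ⟨A.1.mul B.1, A.2.mul B.2⟩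
  one := ⟨⟨∅, fun _ => 1⟩, LI.one _⟩
  mul_assoc A B C := LIns.ext' (Finset.union_assoc _ _ _) fun ω => mul_assoc _ _ _
  one_mul A := LIns.ext' (Finset.empty_union _) fun ω => one_mul _
  mul_one A := LIns.ext' (Finset.union_empty _) fun ω => mul_one _
  mul_comm A B := LIns.ext' (Finset.union_comm _ _) fun ω => mul_comm _ _

theorem LIns.mul_S (A B : LIns) : (A * B).1.S = A.1.S ∪ B.1.S := rfl

theorem LIns.mul_F (A B : LIns) (ω : HO (ℤ × ℤ)) : (A * B).1.F ω = A.1.F ω * B.1.F ω := rfl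

theorem LIns.one_S : (1 : LIns).1.S = ∅ := rfl

theorem LIns.one_F (ω : HO (ℤ × ℤ)) : (1 : LIns).1.F ω = 1 := rfl

/-- translations -/
def LIns.sh (a : ℤ × ℤ) (A : LIns) : LIns := ⟨A.1.shift a, (A.2.shift a).mono (Set.subset_univ _)⟩

/-- reflections -/
def LIns.th {P : Rf (ℤ × ℤ)} {l : ℤ × ℤ → ℤ × ℤ} (hP : P.Lin l) (A : LIns) : LIns :=
  ⟨P.th A.1, (hP.LI A.2).mono (Set.subset_univ _)⟩

theorem LIns.sh_sh (a b : ℤ × ℤ) (A : LIns) : LIns.sh a (LIns.sh b A) = LIns.sh (a + b) A := by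
  refine LIns.ext' ?_ fun ω => ?_
  · show (A.1.S.image (shE b)).image (shE a) = A.1.S.image (shE (a + b))
    rw [Finset.image_image]
    exact Finset.image_congr fun e _ => shE_shE a b e
  · show A.1.F (shH b (shH a ω)) = A.1.F (shH (a + b) ω)
    rw [shH_shH, add_comm]

theorem LIns.sh_zero (A : LIns) : LIns.sh 0 A = A := by
  refine LIns.ext' ?_ fun ω => ?_
  · show A.1.S.image (shE 0) = A.1.S
    rw [show shE 0 = id from funext shE_zero, Finset.image_id]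
  · show A.1.F (shH 0 ω) = A.1.F ω
    rw [shH_zero]

theorem LIns.sh_mul (a : ℤ × ℤ) (A B : LIns) :
    LIns.sh a (A * B) = LIns.sh a A * LIns.sh a B :=
  LIns.ext' (Finset.image_union _ _) fun _ => rfl

theorem LIns.sh_one (a : ℤ × ℤ) : LIns.sh a 1 = 1 :=
  LIns.ext' (Finset.image_empty _) fun _ => rfl

variable {P : Rf (ℤ × ℤ)} {l : ℤ × ℤ → ℤ × ℤ}

theorem LIns.th_mul (hP : P.Lin l) (A B : LIns) :
    LIns.th hP (A * B) = LIns.th hP A * LIns.th hP B :=
  LIns.ext' (Finset.image_union _ _) fun _ => map_mul _ _ _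

theorem LIns.th_one (hP : P.Lin l) : LIns.th hP 1 = 1 :=
  LIns.ext' (Finset.image_empty _) fun _ => map_one _

theorem LIns.th_th (hP : P.Lin l) (A : LIns) : LIns.th hP (LIns.th hP A) = A :=
  Subtype.ext (hP.th_th A.1)

theorem LIns.th_sh (hP : P.Lin l) (a : ℤ × ℤ) (A : LIns) :
    LIns.th hP (LIns.sh a A) = LIns.sh (l a) (LIns.th hP A) :=
  Subtype.ext (hP.th_shift a A.1)

end Vale.Agent.P167.H592
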