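import Vale.Agent.P167.H592.Ph

/-!
# P167, block K1: values of products and reflection forms of phase insertions; uncutting
-/

namespace Vale.Agent.P167.H592

open Finset Filter Topology MeasureTheory
open Vale.Agent.P152 (Edge Ori vw wt unroll)
open Vale.Agent.P167.H825
open Vale.Agent.P167.H199 (phF Xc isOm_phF exists_isOm abs_Xc_le)

variable {om : Ins → ℂ}

/-- Value of a phase insertion. -/
theorem IsOm.om_phI (h : IsOm (√3) om) {S E : Finset Ed} (hSE : S ⊆ E) {a : Ed → Bool → ℝ}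
    (ha : ∀ e ∉ E, ∀ b, a e b = 0) :
    om (phI S E a).1 = ((∫ ω, Xc S a ω ∂μ : ℝ) : ℂ) :=
  isOm_phF h hSE ha

/-- Value of a phase insertion, the cuts being anywhere. -/
theorem IsOm.om_phI' (h : IsOm (√3) om) {S E : Finset Ed} {a : Ed → Bool → ℝ}
    (ha : ∀ e ∉ E, ∀ b, a e b = 0) :
    om (phI S E a).1 = ((∫ ω, Xc S a ω ∂μ : ℝ) : ℂ) := by
  classical
  have ha' : ∀ e ∉ S ∪ E, ∀ b, a e b = 0 := fun e he b => ha e (fun h => he (mem_union_right _ h)) b
  rw [phI_eq (S := S) ha ha' rfl]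
  exact h.om_phI subset_union_left ha'

/-- reflected and translated cuts -/
def Rf.imS (P : Rf (ℤ × ℤ)) (v : ℤ × ℤ) (S : Finset Ed) : Finset Ed := (S.image P.ρ).image (shE v)

theorem thA_off {P : Rf (ℤ × ℤ)} (hP : P.Ok) {E : Finset Ed} {a : Ed → Bool → ℝ}
    (ha : ∀ e ∉ E, ∀ b, a e b = 0) (v : ℤ × ℤ) :
    ∀ e ∉ P.imS v E, ∀ b, shA v (P.thA a) e b = 0 := by
  classical
  intro e he b
  have h1 : P.ρ (shE (-v) e) ∉ E := by
    intro h
    apply he
    refine mem_image.2 ⟨shE (-v) e, mem_image.2 ⟨_, h, hP.ρρ _⟩, ?_⟩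
    rw [shE_shE, add_neg_cancel, shE_zero]
  show (if P.s (shE (-v) e) then (1 : ℝ) else -1) * a (P.ρ (shE (-v) e)) _ = 0
  rw [ha _ h1, mul_zero]

/-- reflection of a phase insertion in a shifted line -/
theorem shth_phI {P : Rf (ℤ × ℤ)} {l : ℤ × ℤ → ℤ × ℤ} (hP : P.Lin l) (v : ℤ × ℤ)
    (S E : Finset Ed) (a : Ed → Bool → ℝ) :
    LIns.sh v (LIns.th hP (phI S E a)) = phI (P.imS v S) (P.imS v E) (shA v (P.thA a)) := by
  rw [th_phI, sh_phI]
  rfl

/-- **The reflection form of phase insertions is a percolation expectation.** -/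
theorem IsOm.w_phI_th (h : IsOm (√3) om) {P : Rf (ℤ × ℤ)} {l : ℤ × ℤ → ℤ × ℤ} (hP : P.Lin l)
    (v : ℤ × ℤ) {S E S' E' : Finset Ed} {a a' : Ed → Bool → ℝ} (ha : ∀ e ∉ E, ∀ b, a e b = 0)
    (ha' : ∀ e ∉ E', ∀ b, a' e b = 0) :
    (sysOm om).w (phI S E a * LIns.sh v (LIns.th hP (phI S' E' a'))) =
      ((∫ ω, Xc (S ∪ P.imS v S') (fun e b => a e b + shA v (P.thA a') e b) ω ∂μ : ℝ) : ℂ) := by
  classical
  rw [shth_phI, phI_mul ha (thA_off hP.ok ha' v)]
  refine h.om_phI' fun e he b => ?_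
  rw [mem_union, not_or] at he
  rw [ha e he.1, thA_off hP.ok ha' v e he.2, add_zero]

theorem zv_uncut {V : Type} [AddCommGroup V] [Fintype V] [DecidableEq V] (c : ℝ) (g1 g2 : V)
    {S S' : Finset Ed} (hS : S ⊆ S') (F : HO (ℤ × ℤ) → ℂ)
    (hn : ∀ e ∈ S', ∀ e' ∈ S', emE g1 g2 e = emE g1 g2 e' → e = e') :
    zv c g1 g2 S' (fun ω => if ∀ e ∈ S' \ S, ω e false = ω e true then F ω else 0) =
      zv c g1 g2 S F := by
  classical
  unfold zv
  refine Finset.sum_congr rfl fun ω _ => ?_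
  have hnd : NoDef (S.image (emE g1 g2)) ω ↔ NoDef (S'.image (emE g1 g2)) ω ∧
      ∀ e ∈ S' \ S, unH g1 g2 ω e false = unH g1 g2 ω e true := by
    constructor
    · intro hd
      refine ⟨fun e he => hd e fun h' => he ?_, fun e he => hd _ fun h' => ?_⟩
      · exact image_subset_image hS h'
      · obtain ⟨e', he', hee⟩ := mem_image.1 h'
        have := hn e' (hS he') e (mem_sdiff.1 he).1 hee
        rw [this] at he'
        exact (mem_sdiff.1 he).2 he'
    · rintro ⟨hd, hm⟩ e he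
      by_cases hc : e ∈ S'.image (emE g1 g2)
      · obtain ⟨e', he', rfl⟩ := mem_image.1 hc
        exact hm e' (mem_sdiff.2 ⟨he', fun h' => he (mem_image_of_mem _ h')⟩)
      · exact hd e hc
  beta_reduce
  by_cases h1 : NoDef (S'.image (emE g1 g2)) ω
  · by_cases h2 : ∀ e ∈ S' \ S, unH g1 g2 ω e false = unH g1 g2 ω e true
    · rw [if_pos h1, if_pos (hnd.2 ⟨h1, h2⟩), if_pos h2]
    · rw [if_pos h1, if_neg fun h' => h2 (hnd.1 h').2, if_neg h2, mul_zero]
  · rw [if_neg h1, if_neg fun h' => h1 (hnd.1 h').1]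

theorem ev_inj (S' : Finset Ed) : ∀ᶠ n : ℕ in atTop, ∀ e ∈ S', ∀ e' ∈ S', emE ((1, 0) :
      ZMod (2 * (2 * n + 2)) × ZMod (2 * n + 2)) (0, 1) e = emE (1, 0) (0, 1) e' → e = e' := by
  refine (Filter.eventually_all_finset S').2 fun e _ =>
    (Filter.eventually_all_finset S').2 fun e' _ => ?_
  have key : ∀ x y : ℤ, ∀ᶠ n : ℕ in atTop, ∀ M : ℕ, n ≤ M →
      ((x : ZMod M) = (y : ZMod M)) → x = y := by
    intro x y
    filter_upwards [eventually_gt_atTop (y - x).natAbs] with n hn M hM hxy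
    rw [ZMod.intCast_eq_intCast_iff_dvd_sub] at hxy
    have h1 : y - x = 0 := Int.eq_zero_of_abs_lt_dvd hxy (by rw [Int.abs_eq_natAbs]; omega)
    omega
  have key2 : ∀ v w : ℤ × ℤ, ∀ᶠ n : ℕ in atTop, em ((1, 0) :
      ZMod (2 * (2 * n + 2)) × ZMod (2 * n + 2)) (0, 1) v = em (1, 0) (0, 1) w → v = w := by
    intro v w
    filter_upwards [key v.1 w.1, key v.2 w.2] with n hn hn' hvw
    rw [em_inl_std, em_inl_std] at hvw
    have q1 := congrArg Prod.fst hvw
    have q2 := congrArg Prod.snd hvw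
    exact Prod.ext (hn _ (by omega) q1) (hn' _ (by omega) q2)
  rcases e with v | v <;> rcases e' with w | w
  · filter_upwards [key2 v w] with n hn hh
    rw [hn (Sum.inl_injective hh)]
  · exact Filter.Eventually.of_forall fun n hh => by cases hh
  · exact Filter.Eventually.of_forall fun n hh => by cases hh
  · filter_upwards [key2 v w] with n hn hh
    rw [hn (Sum.inr_injective hh)]

/-- **Uncutting**: an insertion which does not see a defect at an edge need not be cut there. -/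
theorem IsOm.uncut {c : ℝ} (h : IsOm c om) {S S' : Finset Ed} (hS : S ⊆ S')
    {F : HO (ℤ × ℤ) → ℂ} (hF : LI Set.univ ⟨S', F⟩) :
    om ⟨S, F⟩ = om ⟨S', fun ω => if ∀ e ∈ S' \ S, ω e false = ω e true then F ω else 0⟩ := by
  classical
  obtain ⟨Λ, -, h2, h3⟩ := hF
  have h2' : S' ⊆ Λ := h2
  have hA : LI Set.univ ⟨S, F⟩ := ⟨Λ, fun e _ => mem_EdT_univ e, hS.trans h2', h3⟩
  have hB : LI Set.univ
      ⟨S', fun ω => if ∀ e ∈ S' \ S, ω e false = ω e true then F ω else 0⟩ := by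
    refine ⟨Λ, fun e _ => mem_EdT_univ e, h2', fun ω ω' hh => ?_⟩
    show (if ∀ e ∈ S' \ S, ω e false = ω e true then F ω else 0) =
      if ∀ e ∈ S' \ S, ω' e false = ω' e true then F ω' else 0
    have e1 : (∀ e ∈ S' \ S, ω e false = ω e true) ↔ ∀ e ∈ S' \ S, ω' e false = ω' e true := by
      refine forall_congr' fun e => forall_congr' fun he => ?_
      rw [hh e (h2' (mem_sdiff.1 he).1)]
    rw [show F ω = F ω' from h3 ω ω' hh]
    by_cases hc : ∀ e ∈ S' \ S, ω e false = ω e true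
    · rw [if_pos hc, if_pos (e1.1 hc)]
    · rw [if_neg hc, if_neg fun h' => hc (e1.2 h')]
  refine tendsto_nhds_unique (h.tendsto_std hA) ((h.tendsto_std hB).congr' ?_)
  filter_upwards [ev_inj S'] with n hn
  have h4 := zv_uncut (V := ZMod (2 * (2 * n + 2)) × ZMod (2 * n + 2)) c (1, 0) (0, 1) hS F hn
  show zv c (1, 0) (0, 1) S' _ / _ = zv c (1, 0) (0, 1) S F / _
  rw [h4]

end Vale.Agent.P167.H592
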