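import Vale.Agent.P167.H592.K1

/-!
# P167, block K1: insertions given by phases; their products, translates and reflections

`phI S E a`: the edges of `S` are cut, the functional is `exp (i ∑_{e ∈ E} ∑_b a e b σ(e, b))`.
-/

namespace Vale.Agent.P167.H592

open Finset Filter Topology MeasureTheory
open Vale.Agent.P152 (Edge Ori vw wt unroll)
open Vale.Agent.P167.H825
open Vale.Agent.P167.H199 (phF Xc isOm_phF exists_isOm abs_Xc_le)

/-- The insertion with cuts `S` and phases `a` on `E`. -/
noncomputable def phI (S E : Finset Ed) (a : Ed → Bool → ℝ) : LIns :=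
  ⟨⟨S, phF E a⟩, by
    classical
    refine ⟨S ∪ E, fun e _ => mem_EdT_univ e, Finset.subset_union_left, fun ω ω' h => ?_⟩
    have h2 : ∑ e ∈ E, ∑ b : Bool, a e b * (if ω e b then (1 : ℝ) else -1) =
        ∑ e ∈ E, ∑ b : Bool, a e b * (if ω' e b then (1 : ℝ) else -1) :=
      sum_congr rfl fun e he => by rw [h e (mem_union_right _ he)]
    show phF E a ω = phF E a ω'
    unfold phF
    rw [h2]⟩

/-- Support of a phase insertion. -/
theorem phI_LI {S E : Finset Ed} {a : Ed → Bool → ℝ} {K : Set (ℤ × ℤ)}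
    (hS : ∀ e ∈ S, e ∈ EdT K) (hE : ∀ e ∈ E, e ∈ EdT K) : LI K (phI S E a).1 := by
  classical
  refine ⟨S ∪ E, fun e he => ?_, Finset.subset_union_left, fun ω ω' h => ?_⟩
  · rcases mem_union.1 he with he | he
    · exact hS e he
    · exact hE e he
  · have h2 : ∑ e ∈ E, ∑ b : Bool, a e b * (if ω e b then (1 : ℝ) else -1) =
        ∑ e ∈ E, ∑ b : Bool, a e b * (if ω' e b then (1 : ℝ) else -1) :=
      sum_congr rfl fun e he => by rw [h e (mem_union_right _ he)]
    show phF E a ω = phF E a ω'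
    unfold phF
    rw [h2]

/-- The phases matter only through their values. -/
theorem phF_eq {E E' : Finset Ed} {a a' : Ed → Bool → ℝ} (ha : ∀ e ∉ E, ∀ b, a e b = 0)
    (ha' : ∀ e ∉ E', ∀ b, a' e b = 0) (h : a = a') : phF E a = phF E' a' := by
  classical
  subst h
  funext ω
  have key : ∀ E : Finset Ed, (∀ e ∉ E, ∀ b, a e b = 0) →
      ∑ e ∈ E, ∑ b : Bool, a e b * (if ω e b then (1 : ℝ) else -1) =
      ∑ᶠ e, ∑ b : Bool, a e b * (if ω e b then (1 : ℝ) else -1) := by
    intro E hE
    rw [finsum_eq_sum_of_support_subset]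
    intro e he
    by_contra hn
    apply he
    show ∑ b : Bool, a e b * (if ω e b then (1 : ℝ) else -1) = 0
    exact Finset.sum_eq_zero fun b _ => by rw [hE e hn b, zero_mul]
  unfold phF
  rw [key E ha, key E' ha']

theorem phI_eq {S E E' : Finset Ed} {a a' : Ed → Bool → ℝ} (ha : ∀ e ∉ E, ∀ b, a e b = 0)
    (ha' : ∀ e ∉ E', ∀ b, a' e b = 0) (h : a = a') : phI S E a = phI S E' a' :=
  LIns.ext' rfl fun ω => congrFun (phF_eq ha ha' h) ω

/-- **Product of phase insertions.** -/
theorem phI_mul {S S' E E' : Finset Ed} {a a' : Ed → Bool → ℝ} (ha : ∀ e ∉ E, ∀ b, a e b = 0)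
    (ha' : ∀ e ∉ E', ∀ b, a' e b = 0) :
    phI S E a * phI S' E' a' = phI (S ∪ S') (E ∪ E') (fun e b => a e b + a' e b) := by
  classical
  refine LIns.ext' rfl fun ω => ?_
  show phF E a ω * phF E' a' ω = phF (E ∪ E') _ ω
  rw [phF_eq (E := E) (E' := E ∪ E') ha (fun e he b => ha e (fun h => he (mem_union_left _ h)) b)
    rfl, phF_eq (E := E') (E' := E ∪ E') ha'
    (fun e he b => ha' e (fun h => he (mem_union_right _ h)) b) rfl]
  unfold phF
  rw [← Complex.exp_add]
  congr 1
  rw [← mul_add, ← Complex.ofReal_add, ← Finset.sum_add_distrib]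
  congr 2
  refine Finset.sum_congr rfl fun e _ => ?_
  rw [← Finset.sum_add_distrib]
  exact Finset.sum_congr rfl fun b _ => by rw [add_mul]

/-- translated phases -/
def shA (v : ℤ × ℤ) (a : Ed → Bool → ℝ) : Ed → Bool → ℝ := fun e b => a (shE (-v) e) b

theorem shE_inj (v : ℤ × ℤ) : Function.Injective (shE v) := by
  intro e e' h
  have := congrArg (shE (-v)) h
  rwa [shE_shE, shE_shE, neg_add_cancel, shE_zero, shE_zero] at this

/-- **Translate of a phase insertion.** -/
theorem sh_phI (v : ℤ × ℤ) (S E : Finset Ed) (a : Ed → Bool → ℝ) :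
    LIns.sh v (phI S E a) = phI (S.image (shE v)) (E.image (shE v)) (shA v a) := by
  classical
  refine LIns.ext' rfl fun ω => ?_
  show phF E a (shH v ω) = phF (E.image (shE v)) (shA v a) ω
  unfold phF
  congr 2
  rw [Finset.sum_image fun x _ y _ h => shE_inj v h]
  congr 1
  refine Finset.sum_congr rfl fun e _ => Finset.sum_congr rfl fun b _ => ?_
  show a e b * (if ω (shE v e) b then (1 : ℝ) else -1) = a (shE (-v) (shE v e)) b * _
  rw [shE_shE, neg_add_cancel, shE_zero]

/-- reflected phases -/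
def Rf.thA (P : Rf (ℤ × ℤ)) (a : Ed → Bool → ℝ) : Ed → Bool → ℝ :=
  fun e b => (if P.s e then 1 else -1) * a (P.ρ e) (xor (P.t e) b)

/-- **Reflection of a phase insertion.** -/
theorem th_phI {P : Rf (ℤ × ℤ)} {l : ℤ × ℤ → ℤ × ℤ} (hP : P.Lin l) (S E : Finset Ed)
    (a : Ed → Bool → ℝ) :
    LIns.th hP (phI S E a) = phI (S.image P.ρ) (E.image P.ρ) (P.thA a) := by
  classical
  refine LIns.ext' rfl fun ω => ?_
  show (starRingEnd ℂ) (phF E a (P.act ω)) = phF (E.image P.ρ) (P.thA a) ω
  unfold phF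
  rw [← Complex.exp_conj, map_mul, Complex.conj_I, Complex.conj_ofReal, neg_mul, ← mul_neg,
    ← Complex.ofReal_neg]
  congr 3
  have hinj : Function.Injective P.ρ := fun x y h => by rw [← hP.ok.ρρ x, h, hP.ok.ρρ]
  rw [Finset.sum_image fun x _ y _ h => hinj h, ← Finset.sum_neg_distrib]
  refine Finset.sum_congr rfl fun e _ => ?_
  rw [Fintype.sum_bool, Fintype.sum_bool]
  have h1 : ∀ b, P.act ω e b = xor (P.s e) (ω (P.ρ e) (xor (P.t e) b)) := fun b => rfl
  have h2 : ∀ b, P.thA a (P.ρ e) b = (if P.s e then 1 else -1) * a e (xor (P.t e) b) := by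
    intro b
    show (if P.s (P.ρ e) then 1 else -1) * a (P.ρ (P.ρ e)) (xor (P.t (P.ρ e)) b) = _
    rw [hP.ok.ρρ, hP.ok.tρ, hP.ok.sρ]
  rw [h1, h1, h2, h2]
  have h3 : ∀ (s x : Bool) (r : ℝ), -(r * (if xor s x then (1 : ℝ) else -1)) =
      (if s then (1 : ℝ) else -1) * r * (if x then 1 else -1) := by
    intro s x r
    cases s <;> cases x <;> simp
  rw [neg_add, h3, h3]
  cases P.t e
  · simp only [Bool.false_xor]
  · simp only [Bool.true_xor, Bool.not_true, Bool.not_false]
    rw [add_comm]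

/-- Reflection of the rows. -/
def rY : Rf (ℤ × ℤ) where
  ρ := Sum.elim (fun v => Sum.inl (v.1, 1 - v.2)) (fun v => Sum.inr (v.1, -v.2))
  t := Sum.elim (fun _ => false) (fun _ => true)
  s := Sum.elim (fun _ => true) (fun _ => false)

/-- Reflection of the antidiagonals. -/
def rA : Rf (ℤ × ℤ) where
  ρ := Sum.elim (fun v => Sum.inr (1 - v.2, -v.1)) (fun v => Sum.inl (-v.2, 1 - v.1))
  t := fun _ => true
  s := fun _ => false

theorem rY_lin : rY.Lin (fun a => (a.1, -a.2)) where
  ok :=
    { ρρ := by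
        rintro (v | v)
        · show Sum.inl (v.1, 1 - (1 - v.2)) = Sum.inl v
          rw [sub_sub_cancel]
        · show Sum.inr (v.1, - -v.2) = Sum.inr v
          rw [neg_neg]
      tρ := by rintro (v | v) <;> rfl
      sρ := by rintro (v | v) <;> rfl }
  ρ a e := by
    rcases e with v | v
    · show Sum.inl (v.1 + a.1, 1 - (v.2 + a.2)) = Sum.inl (v.1 + a.1, 1 - v.2 + -a.2)
      rw [← sub_sub, sub_eq_add_neg (1 - v.2)]
    · show Sum.inr (v.1 + a.1, -(v.2 + a.2)) = Sum.inr (v.1 + a.1, -v.2 + -a.2)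
      rw [neg_add]
  t a e := by rcases e with v | v <;> rfl
  s a e := by rcases e with v | v <;> rfl
  ll a := by
    show (a.1, - -a.2) = a
    rw [neg_neg]
  ed {K e} he := by
    rcases e with v | v
    · intro i j h1 h2 h3 h4
      have := he i (-1 - j) h1 h2 (by omega) (by omega)
      show (v.1 + i, -(1 - v.2 + j)) ∈ K
      rw [show -(1 - v.2 + j) = v.2 + (-1 - j) by ring]
      exact this
    · intro i j h1 h2 h3 h4
      have := he i (-j) h1 h2 (by omega) (by omega)
      show (v.1 + i, -(-v.2 + j)) ∈ K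
      rw [show -(-v.2 + j) = v.2 + -j by ring]
      exact this

theorem rA_lin : rA.Lin (fun a => (-a.2, -a.1)) where
  ok :=
    { ρρ := by
        rintro (v | v)
        · show Sum.inl (- -v.1, 1 - (1 - v.2)) = Sum.inl v
          rw [sub_sub_cancel, neg_neg]
        · show Sum.inr (1 - (1 - v.1), - -v.2) = Sum.inr v
          rw [neg_neg, sub_sub_cancel]
      tρ := fun _ => rfl
      sρ := fun _ => rfl }
  ρ a e := by
    rcases e with v | v
    · show Sum.inr (1 - (v.2 + a.2), -(v.1 + a.1)) = Sum.inr (1 - v.2 + -a.2, -v.1 + -a.1)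
      rw [← sub_sub, sub_eq_add_neg (1 - v.2), neg_add]
    · show Sum.inl (-(v.2 + a.2), 1 - (v.1 + a.1)) = Sum.inl (-v.2 + -a.2, 1 - v.1 + -a.1)
      rw [← sub_sub, sub_eq_add_neg (1 - v.1), neg_add]
  t a e := rfl
  s a e := rfl
  ll a := by
    show (- -a.1, - -a.2) = a
    rw [neg_neg, neg_neg]
  ed {K e} he := by
    rcases e with v | v
    · intro i j h1 h2 h3 h4
      have := he (-j) (-1 - i) (by omega) (by omega) (by omega) (by omega)
      show (-(-v.1 + j), -(1 - v.2 + i)) ∈ K
      rw [show -(-v.1 + j) = v.1 + -j by ring, show -(1 - v.2 + i) = v.2 + (-1 - i) by ring]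
      exact this
    · intro i j h1 h2 h3 h4
      have := he (-1 - j) (-i) (by omega) (by omega) (by omega) (by omega)
      show (-(1 - v.1 + j), -(-v.2 + i)) ∈ K
      rw [show -(1 - v.1 + j) = v.1 + (-1 - j) by ring, show -(-v.2 + i) = v.2 + -i by ring]
      exact this

theorem thY_eq (A : LIns) : thY A = LIns.th rY_lin A := by
  refine LIns.ext' ?_ fun ω => ?_
  · show ((A.1.S.image rD.ρ).image (rX ℤ ℤ).ρ).image rD.ρ = A.1.S.image rY.ρ
    rw [Finset.image_image, Finset.image_image]
    refine Finset.image_congr fun e _ => ?_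
    rcases e with v | v <;> rfl
  · show (starRingEnd ℂ) ((starRingEnd ℂ) ((starRingEnd ℂ)
      (A.1.F (rD.act ((rX ℤ ℤ).act (rD.act ω)))))) = (starRingEnd ℂ) (A.1.F (rY.act ω))
    rw [Complex.conj_conj]
    congr 2
    funext e b
    rcases e with v | v
    · show xor true (xor true (xor true (ω (Sum.inl (v.1, 1 - v.2))
        (xor false (xor false (xor false b)))))) =
        xor true (ω (Sum.inl (v.1, 1 - v.2)) (xor false b))
      simp
    · show xor true (xor false (xor true (ω (Sum.inr (v.1, -v.2))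
        (xor false (xor true (xor false b)))))) =
        xor false (ω (Sum.inr (v.1, -v.2)) (xor true b))
      simp

theorem thA_eq (A : LIns) : thA A = LIns.th rA_lin A := by
  refine LIns.ext' ?_ fun ω => ?_
  · show ((A.1.S.image (rX ℤ ℤ).ρ).image rD.ρ).image (rX ℤ ℤ).ρ = A.1.S.image rA.ρ
    rw [Finset.image_image, Finset.image_image]
    refine Finset.image_congr fun e _ => ?_
    rcases e with v | v <;> rfl
  · show (starRingEnd ℂ) ((starRingEnd ℂ) ((starRingEnd ℂ)
      (A.1.F ((rX ℤ ℤ).act (rD.act ((rX ℤ ℤ).act ω)))))) = (starRingEnd ℂ) (A.1.F (rA.act ω))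
    rw [Complex.conj_conj]
    congr 2
    funext e b
    rcases e with v | v
    · show xor false (xor true (xor true (ω (Sum.inr (1 - v.2, -v.1))
        (xor false (xor false (xor true b)))))) =
        xor false (ω (Sum.inr (1 - v.2, -v.1)) (xor true b))
      simp
    · show xor true (xor true (xor false (ω (Sum.inl (-v.2, 1 - v.1))
        (xor true (xor false (xor false b)))))) =
        xor false (ω (Sum.inl (-v.2, 1 - v.1)) (xor true b))
      simp

end Vale.Agent.P167.H592
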