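import Vale.Agent.P167.XDL.EnlS
import Vale.Agent.P167.H680.Q.WC
import Vale.Agent.P167.QX.Strand

/-!
# P167, general `q`: walls of a polygon with arbitrary phases

The phases of the two sides of the polygon are two functions `PI` (inside) and `PO` (outside) of the
number of the step of the enlarged polygon (counted from the base point).
-/

namespace Vale.Agent.P167.Enl

open Finset
open Vale.Agent.P167.E6 (IsPolygon Encloses dir face)
open Vale.Agent.P167.H825 (dirOf tn enl pdir ptau Wall WC Marks rnd bsite sideWall pwall PW dv epos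
  FlowIn)
open Vale.Agent.P167.BR (ce be ce0 ce1 ce2 ce3 be_injective ce_even ce_odd be_bd be_even be_odd eds
  mem_eds exists_be)
open Vale.Agent.P167.E2 (ro ro_spec ro_unique)
open Vale.Agent.P167.H871 (Bd)
open Vale.Agent.P167.H199 (hb ah at')
open Vale.Agent.P167.A (plane plane_sg)
open Vale.Agent.P167.XDL (bS mem_bS)
open Vale.Agent.P167.QX (GauQ)
open Vale.Agent.P167.H680.Q (WallQ WCQ wv)

/-- The wall along the side which starts at the site `z` in the direction `r`, between the steps `s`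
and `e`. The face inside the domain (on the left of the side) has the phase `φi σ` at the step `σ`,
the face outside has the phase `φo σ`. -/
def sideWallQ (z : ℤ × ℤ) (r : Fin 4) (s e : ℕ) (φi φo : ℕ → ℝ) : WallQ :=
  match r with
  | 0 => ⟨true, (z.1 + s, z.2 - 1), e - s, fun k => φo (s + k), fun k => φi (s + k)⟩
  | 1 => ⟨false, (z.1 - 1, z.2 + s), e - s, fun k => φi (s + k), fun k => φo (s + k)⟩
  | 2 => ⟨true, (z.1 - e, z.2 - 1), e - s, fun k => φi (e - 1 - k), fun k => φo (e - 1 - k)⟩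
  | 3 => ⟨false, (z.1 - 1, z.2 - e), e - s, fun k => φo (e - 1 - k), fun k => φi (e - 1 - k)⟩

/-- The phase of the face `b` of a step in the direction `r`. -/
def fQ (r : Fin 4) (x y : ℝ) (b : Bool) : ℝ := if b = inn r then x else y

/-- The phase of the half arrow `b`. -/
def hQ (r : Fin 4) (x y : ℝ) (b : Bool) : ℝ := if b then fQ r x y b else - fQ r x y b

variable (z : ℤ × ℤ) (r : Fin 4) (s e : ℕ) (φi φo : ℕ → ℝ)

theorem swQ_L : (sideWallQ z r s e φi φo).L = e - s := by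
  fin_cases r <;> rfl

/-- Positions. -/
theorem swQ_old (a : ℝ) (t0 : Option ℕ) : (sideWallQ z r s e φi φo).old.L =
      (sideWall z r s e a t0).L ∧
    ∀ k, (sideWallQ z r s e φi φo).old.pos k = (sideWall z r s e a t0).pos k := by
  fin_cases r <;> exact ⟨rfl, fun _ => rfl⟩

theorem swQ_e' (k : ℕ) : (sideWallQ z r s e φi φo).e k = (sideWall z r s e 0 none).e k := by
  fin_cases r <;> rfl

variable {z r s e φi φo}

theorem swQ_e {σ : ℕ} (h1 : s ≤ σ) (h2 : σ < e) :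
    (sideWallQ z r s e φi φo).e (idx r s e σ) = ce (z + (σ : ℤ) • dir r) r := by
  rw [swQ_e', sw_e z r 0 none h1 h2]

theorem swQ_wv {σ : ℕ} (h1 : s ≤ σ) (h2 : σ < e) (b : Bool) :
    wv (sideWallQ z r s e φi φo) (idx r s e σ) b = hQ r (φi σ) (φo σ) b := by
  have e1 : s + (σ - s) = σ := by omega
  have e2 : e - 1 - (e - 1 - σ) = σ := by omega
  fin_cases r
  · show (if b = true then φi (s + (σ - s)) else -φo (s + (σ - s))) = hQ 0 (φi σ) (φo σ) b
    rw [e1]
    cases b <;> rfl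
  · show (if b = true then φo (s + (σ - s)) else -φi (s + (σ - s))) = hQ 1 (φi σ) (φo σ) b
    rw [e1]
    cases b <;> rfl
  · show (if b = true then φo (e - 1 - (e - 1 - σ)) else -φi (e - 1 - (e - 1 - σ))) =
      hQ 2 (φi σ) (φo σ) b
    rw [e2]
    cases b <;> rfl
  · show (if b = true then φi (e - 1 - (e - 1 - σ)) else -φo (e - 1 - (e - 1 - σ))) =
      hQ 3 (φi σ) (φo σ) b
    rw [e2]
    cases b <;> rfl

/-- Phases of the two sides of an edge. -/
theorem ah_hQ {a : Ed → Bool → ℝ} {g : Ed} {r : Fin 4} {x y : ℝ} (h : ∀ b, a g b = hQ r x y b) :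
    ah plane a g = fQ r x y (hb plane g) ∧ at' plane a g = - fQ r x y (!hb plane g) := by
  unfold ah at'
  rw [sg_hb, h, h]
  unfold hQ
  cases hb plane g <;> simp

/-! ### families of walls along the sides -/

section

variable {l : ℕ} {p : ZMod l → ℤ × ℤ} {n t : ℕ} {S₀ : Finset (ℤ × ℤ)}

/-- A family of walls: the wall `x` is the part `s x ≤ σ < e x` of the side `i x` of the `n`-fold
enlargement, with the phases `PI`, `PO` of the steps (base point: step `t` of the side `0`). -/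
structure WlsQ {ι : Type} (p : ZMod l → ℤ × ℤ) (n t : ℕ) (PI PO : ℕ → ℝ) (W : WCQ ι)
    (i s e : ι → ℕ) : Prop where
  eq : ∀ x, W.w x = sideWallQ ((n : ℤ) • p (i x : ℕ)) (pdir p (i x)) (s x) (e x)
    (fun σ => PI (kOf l n t (i x) σ)) (fun σ => PO (kOf l n t (i x) σ))
  lt : ∀ x, i x < l
  en : ∀ x σ, s x ≤ σ → σ < e x → σ < n
  dis : ∀ x y σ, i x = i y → s x ≤ σ → σ < e x → s y ≤ σ → σ < e y → x = y

variable {ι : Type} {W : WCQ ι} {PI PO : ℕ → ℝ} {i s e : ι → ℕ}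

/-- The edge of a step of a wall. -/
theorem WlsQ.edge (h : WlsQ p n t PI PO W i s e) (hp : IsPolygon p) (ht : t < n) {x : ι} {σ : ℕ}
    (h1 : s x ≤ σ) (h2 : σ < e x) :
    (W.w x).e (idx (pdir p (i x)) (s x) (e x) σ) =
      be (qN p n t) ((kOf l n t (i x) σ : ℕ) : ZMod (l * n)) := by
  have hn : 0 < n := by omega
  rw [h.eq, swQ_e h1 h2, be_kOf hn hp (h.lt x) ht (h.en x σ h1 h2)]

theorem WlsQ.mem_wS (h : WlsQ p n t PI PO W i s e) (hp : IsPolygon p) (ht : t < n) {x : ι}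
    {g : Ed} : g ∈ (W.w x).S ↔ ∃ σ, s x ≤ σ ∧ σ < e x ∧
      g = be (qN p n t) ((kOf l n t (i x) σ : ℕ) : ZMod (l * n)) := by
  unfold WallQ.S
  rw [mem_image]
  constructor
  · rintro ⟨k, hk, rfl⟩
    rw [mem_range, h.eq, swQ_L] at hk
    obtain ⟨σ, h1, h2, rfl⟩ := exists_idx (pdir p (i x)) hk
    exact ⟨σ, h1, h2, h.edge hp ht h1 h2⟩
  · rintro ⟨σ, h1, h2, rfl⟩
    refine ⟨idx (pdir p (i x)) (s x) (e x) σ, ?_, h.edge hp ht h1 h2⟩
    rw [mem_range, h.eq, swQ_L]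
    exact idx_lt _ h1 h2

variable [Fintype ι]

theorem WlsQ.mem_S (h : WlsQ p n t PI PO W i s e) (hp : IsPolygon p) (ht : t < n) {g : Ed} :
    g ∈ W.S ↔ ∃ x σ, s x ≤ σ ∧ σ < e x ∧
      g = be (qN p n t) ((kOf l n t (i x) σ : ℕ) : ZMod (l * n)) := by
  unfold WCQ.S
  rw [mem_biUnion]
  constructor
  · rintro ⟨x, -, hx⟩
    obtain ⟨σ, h1⟩ := (h.mem_wS hp ht).1 hx
    exact ⟨x, σ, h1⟩
  · rintro ⟨x, σ, h1⟩
    exact ⟨x, mem_univ _, (h.mem_wS hp ht).2 ⟨σ, h1⟩⟩

theorem WlsQ.sub (h : WlsQ p n t PI PO W i s e) (hp : IsPolygon p) (hD : Encloses p S₀)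
    (ht : t < n) : W.S ⊆ bS (enl S₀ n) := by
  intro g hg
  obtain ⟨x, σ, -, -, rfl⟩ := (h.mem_S hp ht).1 hg
  exact be_mem_bS (by omega) hp hD t _

omit [Fintype ι] in
theorem WlsQ.wph_on (h : WlsQ p n t PI PO W i s e) (hp : IsPolygon p) (ht : t < n) {x : ι}
    {σ : ℕ} (h1 : s x ≤ σ) (h2 : σ < e x) (b : Bool) :
    (W.w x).ph (be (qN p n t) ((kOf l n t (i x) σ : ℕ) : ZMod (l * n))) b =
      hQ (pdir p (i x)) (PI (kOf l n t (i x) σ)) (PO (kOf l n t (i x) σ)) b := by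
  unfold WallQ.ph
  have h3 : idx (pdir p (i x)) (s x) (e x) σ ∈ range (W.w x).L := by
    rw [mem_range, h.eq, swQ_L]
    exact idx_lt _ h1 h2
  rw [sum_eq_single_of_mem _ h3]
  · rw [h.edge hp ht h1 h2, if_pos rfl, h.eq, swQ_wv h1 h2]
  · intro k hk hne
    rw [mem_range, h.eq, swQ_L] at hk
    obtain ⟨σ', h1', h2', rfl⟩ := exists_idx (pdir p (i x)) hk
    rw [if_neg]
    rw [h.edge hp ht h1' h2']
    intro h4
    have h5 := be_kOf_inj hp ht (h.lt x) (h.lt x) (h.en x σ h1 h2) (h.en x σ' h1' h2') h4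
    exact hne (by rw [h5.2])

/-- The phases on the walls. -/
theorem WlsQ.ph_on (h : WlsQ p n t PI PO W i s e) (hp : IsPolygon p) (ht : t < n) {x : ι} {σ : ℕ}
    (h1 : s x ≤ σ) (h2 : σ < e x) (b : Bool) :
    W.ph (be (qN p n t) ((kOf l n t (i x) σ : ℕ) : ZMod (l * n))) b =
      hQ (pdir p (i x)) (PI (kOf l n t (i x) σ)) (PO (kOf l n t (i x) σ)) b +
        W.c (be (qN p n t) ((kOf l n t (i x) σ : ℕ) : ZMod (l * n))) / 2 := by
  unfold WCQ.ph
  rw [sum_eq_single_of_mem x (mem_univ _), h.wph_on hp ht h1 h2]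
  intro y _ hy
  have hoff : be (qN p n t) ((kOf l n t (i x) σ : ℕ) : ZMod (l * n)) ∉ (W.w y).S := by
    intro h3
    obtain ⟨σ', h4, h5, h6⟩ := (h.mem_wS hp ht).1 h3
    have h7 := be_kOf_inj hp ht (h.lt x) (h.lt y) (h.en x σ h1 h2) (h.en y σ' h4 h5) h6
    obtain ⟨h8, rfl⟩ := h7
    exact hy (h.dis x y σ h8 h1 h2 h4 h5).symm
  rw [H680.Q.ph_off hoff]
  rfl

/-- The phases off the walls. -/
theorem WlsQ.ph_off {g : Ed} (hg : g ∉ W.S) (b : Bool) : W.ph g b = W.c g / 2 := by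
  unfold WCQ.ph
  rw [sum_eq_zero, zero_add]
  intro y _
  rw [H680.Q.ph_off fun h3 => hg (mem_biUnion.2 ⟨y, mem_univ _, h3⟩)]
  rfl

/-- The phases on the walls, in terms of the steps of the polygon. -/
theorem WlsQ.ph_be (h : WlsQ p n t PI PO W i s e) (hp : IsPolygon p) (ht : t < n) {k : ℕ}
    (hk : k < l * n) (hS : be (qN p n t) (k : ZMod (l * n)) ∈ W.S) (b : Bool) :
    W.ph (be (qN p n t) (k : ZMod (l * n))) b = hQ (pdir p ((k + t) / n)) (PI k) (PO k) b +
        W.c (be (qN p n t) (k : ZMod (l * n))) / 2 := by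
  obtain ⟨i', σ, h1, h2, h3⟩ := exists_kOf ht hk
  obtain ⟨x, σ', h4, h5, h6⟩ := (h.mem_S hp ht).1 hS
  rw [h3] at h6
  obtain ⟨h7, rfl⟩ := be_kOf_inj hp ht h1 (h.lt x) h2 (h.en x σ' h4 h5) h6
  rw [h3, h7, h.ph_on hp ht h4 h5]
  have hd := kOf_div (h.en x σ h4 h5) (h.lt x) ht
  have e1 : pdir p ((kOf l n t (i x) σ + t) / n) = pdir p (i x) := by
    rw [hd]
    split_ifs
    · rfl
    · rw [add_comm, pdir_add]
  rw [e1]

/-- **The phases at the two sides of the cuts**, for a flow in the interior. -/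
theorem WlsQ.sides (h : WlsQ p n t PI PO W i s e) (hp : IsPolygon p) (hD : Encloses p S₀)
    (ht : t < n) {k : ℕ}
    (hk : k < l * n) (hS : be (qN p n t) (k : ZMod (l * n)) ∈ W.S)
    (hc : W.c (be (qN p n t) (k : ZMod (l * n))) = 0) :
    (hdv (be (qN p n t) (k : ZMod (l * n))) ∈ enl S₀ n →
      ah plane W.ph (be (qN p n t) (k : ZMod (l * n))) = PI k ∧
      at' plane W.ph (be (qN p n t) (k : ZMod (l * n))) = - PO k) ∧
    (tlv (be (qN p n t) (k : ZMod (l * n))) ∈ enl S₀ n →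
      at' plane W.ph (be (qN p n t) (k : ZMod (l * n))) = - PI k ∧
      ah plane W.ph (be (qN p n t) (k : ZMod (l * n))) = PO k) := by
  have hn : 0 < n := by omega
  have hq := isPolygon_qN hn hp t
  have hE := encloses_qN hn hp hD t
  have hl := hp.1
  have : NeZero l := ⟨by omega⟩
  have h1 := ah_hQ (a := W.ph) (g := be (qN p n t) (k : ZMod (l * n)))
    (r := pdir p ((k + t) / n)) (x := PI k) (y := PO k) fun b => by
      rw [h.ph_be hp ht hk hS b, hc, zero_div, add_zero]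
  rw [h1.1, h1.2]
  have h2 : ro (qN p n t) (k : ZMod (l * n)) = pdir p ((k + t) / n) :=
    (ro_unique hq (qN_succ hn hp (by push_cast; ring))).symm
  have h3 := hb_ce (qN p n t (k : ZMod (l * n))) (pdir p ((k + t) / n))
  rw [← h2] at h3
  change hb plane (be (qN p n t) (k : ZMod (l * n))) = _ at h3
  rw [h3]
  by_cases hv : Even ((qN p n t (k : ZMod (l * n))).1 + (qN p n t (k : ZMod (l * n))).2)
  · obtain ⟨-, -, h4, h5⟩ := be_even hq hE hv
    rw [if_pos hv, h2]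
    refine ⟨fun _ => ⟨?_, ?_⟩, fun h6 => absurd h6 h5⟩
    · unfold fQ; rw [if_pos rfl]
    · unfold fQ; rw [if_neg (by cases inn (pdir p ((k + t) / n)) <;> simp)]
  · obtain ⟨-, -, h4, h5⟩ := be_odd hq hE hv
    rw [if_neg hv, h2]
    refine ⟨fun h6 => absurd h6 h5, fun _ => ⟨?_, ?_⟩⟩
    · unfold fQ; rw [Bool.not_not, if_pos rfl]
    · unfold fQ; rw [if_neg (by cases inn (pdir p ((k + t) / n)) <;> simp)]

end

end Vale.Agent.P167.Enl
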