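import Vale.Agent.P167.H592.Fold

/-!
# P167, block K1: reflection positivity on a finite graph, general form
-/

namespace Vale.Agent.P167.H592

open Finset
open Vale.Agent.P152 (Edge Ori vw wt unroll)

theorem match_act {V : Type} (R : Rf V) (ω : HO V) (e : Edge V) :
    (R.act ω e false = R.act ω e true) ↔ (ω (R.ρ e) false = ω (R.ρ e) true) := by
  unfold Rf.act
  cases R.t e <;> cases R.s e <;> simp [eq_comm]

theorem rp_gen {V : Type} [AddCommGroup V] [Fintype V] [DecidableEq V] {c : ℝ} {g1 g2 : V}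
    {R : Rf V} (hR : R.Ok) {P : Rf (ℤ × ℤ)}
    (hun : ∀ ω : HO V, unH g1 g2 (R.act ω) = P.act (unH g1 g2 ω))
    (hem : ∀ e, emE g1 g2 (P.ρ e) = R.ρ (emE g1 g2 e))
    (A : Edge V → Bool → Prop) (hA : ∀ e b, A e b ↔ ¬ A (R.ρ e) (xor (R.t e) b))
    {ι U : Type} [Fintype ι] [DecidableEq ι] {a : ℕ}
    (u : ι → HO V → U) (hu : ∀ i (ω ω' : HO V), (∀ e b, A e b → ω e b = ω' e b) → u i ω = u i ω')
    (K : U → U → ℝ) (g : Fin a → U → ℝ) (hK : ∀ x y, K x y = ∑ α, g α x * g α y)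
    (X ER : Finset (Edge V)) (RV : Finset V)
    (hRV : ∀ v ∈ RV, ∀ ω ω' : HO V, (∀ e b, A e b → ω e b = ω' e b) →
      hvw c g1 g2 ω v = hvw c g1 g2 ω' v)
    (hER : ∀ e ∈ ER, ∀ b, A e b)
    (hcov : ∀ e, e ∈ X ∨ e ∈ ER ∨ R.ρ e ∈ ER)
    (hX : ∀ e ∈ X, e ∉ ER ∧ R.ρ e ∉ ER)
    (hfac : ∀ ω : HO V, (if ∀ e ∈ X, ω e false = ω e true then hw c g1 g2 ω else 0) =
      (∏ v ∈ RV, hvw c g1 g2 ω v) * (∏ v ∈ RV, hvw c g1 g2 (R.act ω) v) *
        ∏ i, K (u i ω) (u i (R.act ω)))
    {k : ℕ} (S : Fin k → Finset (Edge (ℤ × ℤ))) (F : Fin k → HO (ℤ × ℤ) → ℂ) (cc : Fin k → ℂ)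
    (hS : ∀ j, ∀ e ∈ S j, emE g1 g2 e ∈ ER)
    (hF : ∀ j, ∀ ω ω' : HO V, (∀ e b, A e b → ω e b = ω' e b) →
      F j (unH g1 g2 ω) = F j (unH g1 g2 ω')) :
    0 ≤ (∑ i, ∑ j, (starRingEnd ℂ) (cc i) * cc j * zv c g1 g2 ((S i).image P.ρ ∪ S j)
      (fun ω => (starRingEnd ℂ) (F i (P.act ω)) * F j ω)).re := by
  classical
  have hdis : ∀ e, e ∈ ER → R.ρ e ∉ ER := fun e he he' =>
    (hA e false).1 (hER e he false) (hER _ he' _)
  let cond : Fin k → HO V → Prop := fun j ω =>
    ∀ e ∈ ER, e ∉ (S j).image (emE g1 g2) → ω e false = ω e true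
  let p : Fin k → HO V → ℝ := fun j ω => if cond j ω then ∏ v ∈ RV, hvw c g1 g2 ω v else 0
  let W : HO V → ℂ := fun ω => ∑ j, cc j * ((p j ω : ℝ) : ℂ) * F j (unH g1 g2 ω)
  have hploc : ∀ j (ω ω' : HO V), (∀ e b, A e b → ω e b = ω' e b) → p j ω = p j ω' := by
    intro j ω ω' h
    have h1 : cond j ω ↔ cond j ω' := by
      refine forall_congr' fun e => forall_congr' fun he => forall_congr' fun _ => ?_
      rw [h e false (hER e he false), h e true (hER e he true)]
    have h2 : ∏ v ∈ RV, hvw c g1 g2 ω v = ∏ v ∈ RV, hvw c g1 g2 ω' v :=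
      Finset.prod_congr rfl fun v hv => hRV v hv ω ω' h
    show (if cond j ω then ∏ v ∈ RV, hvw c g1 g2 ω v else 0) =
      if cond j ω' then ∏ v ∈ RV, hvw c g1 g2 ω' v else 0
    rw [h2]
    by_cases hc : cond j ω
    · rw [if_pos hc, if_pos (h1.1 hc)]
    · rw [if_neg hc, if_neg fun h' => hc (h1.2 h')]
  have hW : ∀ ω ω' : HO V, (∀ e b, A e b → ω e b = ω' e b) → W ω = W ω' := by
    intro ω ω' h
    refine Finset.sum_congr rfl fun j _ => ?_
    rw [hploc j ω ω' h, hF j ω ω' h]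
  have key := fold_kernelC hR A hA W hW u hu K g hK
  refine key.trans (le_of_eq ?_)
  congr 1
  -- the pointwise identity
  have hnd : ∀ i j (ω : HO V), NoDef (((S i).image P.ρ ∪ S j).image (emE g1 g2)) ω ↔
      (∀ e ∈ X, ω e false = ω e true) ∧ cond i (R.act ω) ∧ cond j ω := by
    intro i j ω
    have hT : ∀ e, e ∈ ((S i).image P.ρ ∪ S j).image (emE g1 g2) ↔
        R.ρ e ∈ (S i).image (emE g1 g2) ∨ e ∈ (S j).image (emE g1 g2) := by
      intro e
      rw [Finset.image_union, Finset.mem_union, Finset.image_image]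
      refine or_congr ?_ Iff.rfl
      simp only [Finset.mem_image, Function.comp]
      constructor
      · rintro ⟨e', he', rfl⟩
        exact ⟨e', he', by rw [hem, hR.ρρ]⟩
      · rintro ⟨e', he', h⟩
        exact ⟨e', he', by rw [hem, h, hR.ρρ]⟩
    have hSE : ∀ j e, e ∈ (S j).image (emE g1 g2) → e ∈ ER := by
      intro j e he
      obtain ⟨e', he', rfl⟩ := Finset.mem_image.1 he
      exact hS j e' he'
    constructor
    · intro h
      refine ⟨fun e he => h e ?_, fun e he hne => ?_, fun e he hne => h e ?_⟩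
      · rw [hT]
        rintro (h' | h')
        · exact (hX e he).2 (hSE i _ h')
        · exact (hX e he).1 (hSE j _ h')
      · rw [match_act]
        refine h _ ?_
        rw [hT, hR.ρρ]
        rintro (h' | h')
        · exact hne h'
        · exact hdis e he (hSE j _ h')
      · rw [hT]
        rintro (h' | h')
        · exact hdis e he (hSE i _ h')
        · exact hne h'
    · rintro ⟨h1, h2, h3⟩ e he
      rw [hT, not_or] at he
      rcases hcov e with hc | hc | hc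
      · exact h1 e hc
      · exact h3 e hc he.2
      · have := h2 _ hc he.1
        rwa [match_act, hR.ρρ] at this
  have hpt : ∀ i j (ω : HO V), (if NoDef (((S i).image P.ρ ∪ S j).image (emE g1 g2)) ω then
      hw c g1 g2 ω else 0) = p i (R.act ω) * p j ω * ∏ i, K (u i ω) (u i (R.act ω)) := by
    intro i j ω
    have hf := hfac ω
    by_cases hx : ∀ e ∈ X, ω e false = ω e true
    · rw [if_pos hx] at hf
      by_cases hi : cond i (R.act ω)
      · by_cases hj : cond j ω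
        · rw [if_pos ((hnd i j ω).2 ⟨hx, hi, hj⟩), hf]
          show _ = (if cond i (R.act ω) then ∏ v ∈ RV, hvw c g1 g2 (R.act ω) v else 0) *
            (if cond j ω then ∏ v ∈ RV, hvw c g1 g2 ω v else 0) * _
          rw [if_pos hi, if_pos hj]
          ring
        · rw [if_neg fun h => hj ((hnd i j ω).1 h).2.2]
          show _ = _ * (if cond j ω then ∏ v ∈ RV, hvw c g1 g2 ω v else 0) * _
          rw [if_neg hj, mul_zero, zero_mul]
      · rw [if_neg fun h => hi ((hnd i j ω).1 h).2.1]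
        show _ = (if cond i (R.act ω) then ∏ v ∈ RV, hvw c g1 g2 (R.act ω) v else 0) * _ * _
        rw [if_neg hi, zero_mul, zero_mul]
    · rw [if_neg fun h => hx ((hnd i j ω).1 h).1]
      rw [if_neg hx] at hf
      show _ = (if cond i (R.act ω) then ∏ v ∈ RV, hvw c g1 g2 (R.act ω) v else 0) *
            (if cond j ω then ∏ v ∈ RV, hvw c g1 g2 ω v else 0) * _
      by_cases hi : cond i (R.act ω)
      · by_cases hj : cond j ω
        · rw [if_pos hi, if_pos hj, mul_comm (∏ v ∈ RV, hvw c g1 g2 (R.act ω) v)]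
          exact hf
        · rw [if_neg hj, mul_zero, zero_mul]
      · rw [if_neg hi, zero_mul, zero_mul]
  simp only [zv, Finset.mul_sum]
  rw [Finset.sum_congr rfl fun i _ => Finset.sum_comm, Finset.sum_comm]
  refine Finset.sum_congr rfl fun ω _ => ?_
  show (starRingEnd ℂ) (∑ i, cc i * ((p i (R.act ω) : ℝ) : ℂ) * F i (unH g1 g2 (R.act ω))) *
    (∑ j, cc j * ((p j ω : ℝ) : ℂ) * F j (unH g1 g2 ω)) * _ = _
  rw [map_sum, Finset.sum_mul_sum, Finset.sum_mul]
  refine Finset.sum_congr rfl fun i _ => ?_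
  rw [Finset.sum_mul]
  refine Finset.sum_congr rfl fun j _ => ?_
  have e1 : (if NoDef (((S i).image P.ρ ∪ S j).image (emE g1 g2)) ω then
      (hw c g1 g2 ω : ℂ) * ((starRingEnd ℂ) (F i (P.act (unH g1 g2 ω))) * F j (unH g1 g2 ω))
        else 0) =
      (((if NoDef (((S i).image P.ρ ∪ S j).image (emE g1 g2)) ω then
      hw c g1 g2 ω else 0 : ℝ)) : ℂ) *
        ((starRingEnd ℂ) (F i (P.act (unH g1 g2 ω))) * F j (unH g1 g2 ω)) := by
    split_ifs <;> simp
  rw [e1, hpt i j ω, ← hun]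
  simp only [map_mul, Complex.conj_ofReal]
  push_cast
  ring

end Vale.Agent.P167.H592
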