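import Vale.Agent.P167.H592.TorX

/-!
# P167, block K1: reflection positivity of the skew tori in the diagonals
-/

namespace Vale.Agent.P167.H592

open Finset
open Vale.Agent.P152 (Edge Ori vw wt unroll)

/-- Reflection in the diagonal, all arrows are reversed; `ν` is the map of the vertices. -/
def rDg {V : Type} (ν : V → V) : Rf V where
  ρ := Sum.elim (fun v => Sum.inr (ν v)) (fun v => Sum.inl (ν v))
  t := fun _ => false
  s := fun _ => true

theorem rDg_ok {V : Type} {ν : V → V} (h : ∀ v, ν (ν v) = v) : (rDg ν).Ok where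
  ρρ e := by
    rcases e with v | v
    · show Sum.inl (ν (ν v)) = Sum.inl v
      rw [h]
    · show Sum.inr (ν (ν v)) = Sum.inr v
      rw [h]
  tρ e := rfl
  sρ e := rfl

theorem vw_D (c : ℝ) (l r b a : Bool) : vw c (!b) (!a) (!l) (!r) = vw c l r b a := by
  cases l <;> cases r <;> cases b <;> cases a <;> simp [vw]

theorem hvw_rDg {V : Type} [AddCommGroup V] {g1 g2 : V} {ν : V → V}
    (h1 : ∀ v, ν (v - g1) = ν v - g2) (h2 : ∀ v, ν (v - g2) = ν v - g1) (c : ℝ)
    (ω : HO V) (v : V) : hvw c g1 g2 ((rDg ν).act ω) v = hvw c g1 g2 ω (ν v) := by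
  have e1 : ((rDg ν).act ω) (Sum.inl (v - g1)) true = !ω (Sum.inr (ν v - g2)) true := by
    show xor true (ω (Sum.inr (ν (v - g1))) (xor false true)) = _
    rw [h1]; simp
  have e2 : ((rDg ν).act ω) (Sum.inl v) false = !ω (Sum.inr (ν v)) false := by
    show xor true (ω (Sum.inr (ν v)) (xor false false)) = _
    simp
  have e3 : ((rDg ν).act ω) (Sum.inr (v - g2)) true = !ω (Sum.inl (ν v - g1)) true := by
    show xor true (ω (Sum.inl (ν (v - g2))) (xor false true)) = _
    rw [h2]; simp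
  have e4 : ((rDg ν).act ω) (Sum.inr v) false = !ω (Sum.inl (ν v)) false := by
    show xor true (ω (Sum.inl (ν v)) (xor false false)) = _
    simp
  unfold hvw
  rw [e1, e2, e3, e4]
  exact vw_D c _ _ _ _

/-- kernel on the diagonal -/
noncomputable def kd (c : ℝ) (x y : Bool × Bool) : ℝ := vw c (!y.2) x.1 x.2 (!y.1)

noncomputable def kdg (c : ℝ) : Fin 5 → Bool × Bool → ℝ :=
  ![fun u => if u.1 = u.2 then 1 else 0,
    fun u => if u = (false, false) then √(c - 1) else 0,
    fun u => if u = (true, true) then √(c - 1) else 0,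
    fun u => if u = (false, true) then 1 else 0,
    fun u => if u = (true, false) then 1 else 0]

theorem kd_eq {c : ℝ} (hc : 1 ≤ c) (x y : Bool × Bool) :
    kd c x y = ∑ α, kdg c α x * kdg c α y := by
  have hs : √(c - 1) * √(c - 1) = c - 1 := Real.mul_self_sqrt (by linarith)
  obtain ⟨x1, x2⟩ := x
  obtain ⟨y1, y2⟩ := y
  cases x1 <;> cases x2 <;> cases y1 <;> cases y2 <;>
    simp [Fin.sum_univ_five, kdg, kd, vw, hs]

theorem kd_swap (c : ℝ) (l r b a : Bool) : vw c l r b a = kd c (l, a) (!b, !r) := by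
  cases l <;> cases r <;> cases b <;> cases a <;> simp [vw, kd]

theorem kd_line (c : ℝ) (l r b a : Bool) : vw c l r b a = kd c (r, b) (!a, !l) := by
  simp [kd]

section tor

set_option linter.unusedSectionVars false

variable {K : ℕ} [NeZero K]

/-- reduction mod `K` -/
def pK (K : ℕ) : ZMod (2 * K) →+* ZMod K := ZMod.castHom (dvd_mul_left K 2) (ZMod K)

theorem pK_K : pK K (K : ZMod (2 * K)) = 0 := by
  rw [map_natCast, ZMod.natCast_self]

/-- the reflection of the vertices -/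
def nuT (K : ℕ) (v : ZMod (2 * K) × ZMod K) : ZMod (2 * K) × ZMod K := (-v.1, v.2 + pK K v.1)

theorem nuT_nuT (v : ZMod (2 * K) × ZMod K) : nuT K (nuT K v) = v := by
  show (- -v.1, v.2 + pK K v.1 + pK K (-v.1)) = v
  rw [map_neg, neg_neg, add_neg_cancel_right]

theorem nuT_g1 (v : ZMod (2 * K) × ZMod K) : nuT K (v - (1, 0)) = nuT K v - (-1, 1) := by
  show (-(v.1 - 1), v.2 - 0 + pK K (v.1 - 1)) = (-v.1 - -1, v.2 + pK K v.1 - 1)
  rw [map_sub, map_one]
  apply Prod.ext
  · show -(v.1 - 1) = -v.1 - -1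
    ring
  · show v.2 - 0 + (pK K v.1 - 1) = v.2 + pK K v.1 - 1
    ring

theorem nuT_g2 (v : ZMod (2 * K) × ZMod K) : nuT K (v - (-1, 1)) = nuT K v - (1, 0) := by
  show (-(v.1 - -1), v.2 - 1 + pK K (v.1 - -1)) = (-v.1 - 1, v.2 + pK K v.1 - 0)
  rw [map_sub, map_neg, map_one]
  apply Prod.ext
  · show -(v.1 - -1) = -v.1 - 1
    ring
  · show v.2 - 1 + (pK K v.1 - -1) = v.2 + pK K v.1 - 0
    ring

/-- the right half arrows -/
def AD (K : ℕ) : Edge (ZMod (2 * K) × ZMod K) → Bool → Prop :=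
  fun e _ => Sum.elim (fun v => v.1.val < K) (fun v => 1 ≤ v.1.val ∧ v.1.val ≤ K) e

theorem AD_iff (e : Edge (ZMod (2 * K) × ZMod K)) (b : Bool) :
    AD K e b ↔ ¬ AD K ((rDg (nuT K)).ρ e) (xor ((rDg (nuT K)).t e) b) := by
  have hK : 0 < K := Nat.pos_of_ne_zero (NeZero.ne K)
  rcases e with v | v
  · show v.1.val < K ↔ ¬ (1 ≤ (-v.1).val ∧ (-v.1).val ≤ K)
    have hx := ZMod.val_lt v.1
    rw [val_neg' K]
    split_ifs <;> omega
  · show (1 ≤ v.1.val ∧ v.1.val ≤ K) ↔ ¬ ((-v.1).val < K)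
    have hx := ZMod.val_lt v.1
    rw [val_neg' K]
    split_ifs <;> omega

/-- strictly right of the diagonals -/
def hDg (K : ℕ) (x : ZMod (2 * K)) : Prop := 1 ≤ x.val ∧ x.val < K

instance (K : ℕ) : DecidablePred (hDg K) := fun x => by unfold hDg; infer_instance

theorem val_sub_one' (x : ZMod (2 * K)) :
    (x - 1).val = if x.val = 0 then 2 * K - 1 else x.val - 1 := by
  have hK : 0 < K := Nat.pos_of_ne_zero (NeZero.ne K)
  have h := val_add_one' K (x - 1)
  rw [sub_add_cancel] at h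
  have h1 := ZMod.val_lt (x - 1)
  have h2 := ZMod.val_lt x
  split_ifs at h ⊢ <;> omega

theorem prod_slice {f : ZMod (2 * K) × ZMod K → ℝ} (d : ZMod (2 * K)) :
    (∏ v : ZMod (2 * K) × ZMod K, if v.1 = d then f v else 1) = ∏ y, f (d, y) := by
  rw [Fintype.prod_prod_type]
  rw [Finset.prod_eq_single d]
  · simp
  · intro b _ hb
    simp [hb]
  · intro h
    exact absurd (mem_univ _) h

theorem eqD (ω : HO (ZMod (2 * K) × ZMod K)) (c : ℝ) :
    hw c (1, 0) (-1, 1) ω =
      (∏ v ∈ univ.filter (fun v : ZMod (2 * K) × ZMod K => hDg K v.1),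
        hvw c (1, 0) (-1, 1) ω v) *
      (∏ v ∈ univ.filter (fun v : ZMod (2 * K) × ZMod K => hDg K v.1),
        hvw c (1, 0) (-1, 1) ((rDg (nuT K)).act ω) v) *
      ((∏ y : ZMod K, hvw c (1, 0) (-1, 1) ω (0, y)) *
        ∏ y : ZMod K, hvw c (1, 0) (-1, 1) ω ((K : ZMod (2 * K)), y)) := by
  classical
  have hK : 0 < K := Nat.pos_of_ne_zero (NeZero.ne K)
  have h1 : ∏ v ∈ univ.filter (fun v : ZMod (2 * K) × ZMod K => hDg K v.1),
        hvw c (1, 0) (-1, 1) ((rDg (nuT K)).act ω) v =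
      ∏ v ∈ univ.filter (fun v : ZMod (2 * K) × ZMod K => hDg K (-v.1)),
        hvw c (1, 0) (-1, 1) ω v := by
    refine Finset.prod_nbij' (nuT K) (nuT K) ?_ ?_ ?_ ?_ ?_
    · intro v hv
      simp only [mem_filter, mem_univ, true_and] at hv ⊢
      show hDg K (- -v.1)
      rwa [neg_neg]
    · intro v hv
      simp only [mem_filter, mem_univ, true_and] at hv ⊢
      exact hv
    · intro v _
      exact nuT_nuT v
    · intro v _
      exact nuT_nuT v
    · intro v _
      rw [hvw_rDg nuT_g1 nuT_g2]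
  rw [h1, Finset.prod_filter, Finset.prod_filter, ← prod_slice, ← prod_slice,
    ← Finset.prod_mul_distrib, ← Finset.prod_mul_distrib, ← Finset.prod_mul_distrib]
  refine Finset.prod_congr rfl fun v _ => ?_
  have hx := ZMod.val_lt v.1
  have e0 : v.1 = 0 ↔ v.1.val = 0 := (ZMod.val_eq_zero v.1).symm
  have eK : v.1 = (K : ZMod (2 * K)) ↔ v.1.val = K :=
    ⟨fun h => by rw [h, val_K], fun h => ZMod.val_injective _ (by rw [val_K, h])⟩
  simp only [e0, eK, hDg, val_neg' K]
  rcases lt_trichotomy v.1.val K with h | h | h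
  · by_cases h0 : v.1.val = 0
    · simp [h0, hK.ne]
    · have h3 : 1 ≤ v.1.val := by omega
      have h4 : ¬ (2 * K - v.1.val < K) := by omega
      simp [h0, h, h3, h4, h.ne]
  · have h4 : ¬ (2 * K - K < K) := by omega
    have h5 : K ≠ 0 := hK.ne'
    simp [h, h4, h5]
  · have h0 : v.1.val ≠ 0 := by omega
    have h1 : ¬ (v.1.val < K) := by omega
    have h3 : 1 ≤ 2 * K - v.1.val := by omega
    have h4 : 2 * K - v.1.val < K := by omega
    simp [h0, h1, h3, h4, h.ne']

theorem em_skew (v : ℤ × ℤ) :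
    em ((1, 0) : ZMod (2 * K) × ZMod K) (-1, 1) v =
      (((v.1 - v.2 : ℤ) : ZMod (2 * K)), (v.2 : ZMod K)) := by
  simp [em, sub_eq_add_neg]

theorem nuT_em (v : ℤ × ℤ) : nuT K (em ((1, 0) : ZMod (2 * K) × ZMod K) (-1, 1) v) =
    em ((1, 0) : ZMod (2 * K) × ZMod K) (-1, 1) (v.2, v.1) := by
  rw [em_skew, em_skew]
  show (-((v.1 - v.2 : ℤ) : ZMod (2 * K)), (v.2 : ZMod K) + pK K ((v.1 - v.2 : ℤ) : ZMod (2 * K)))
    = _
  rw [map_intCast]
  apply Prod.ext
  · push_cast
    show -((v.1 : ZMod (2 * K)) - v.2) = v.2 - v.1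
    ring
  · push_cast
    show (v.2 : ZMod K) + (v.1 - v.2) = v.1
    ring

/-- Reflection of the plane in the diagonal. -/
abbrev rD : Rf (ℤ × ℤ) := rDg (fun v : ℤ × ℤ => (v.2, v.1))

theorem unH_rD (ω : HO (ZMod (2 * K) × ZMod K)) :
    unH (1, 0) (-1, 1) ((rDg (nuT K)).act ω) = rD.act (unH (1, 0) (-1, 1) ω) := by
  funext e b
  rcases e with v | v
  · show xor true (ω (Sum.inr (nuT K (em (1, 0) (-1, 1) v))) _) =
      xor true (ω (Sum.inr (em (1, 0) (-1, 1) (v.2, v.1))) _)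
    rw [nuT_em]
    rfl
  · show xor true (ω (Sum.inl (nuT K (em (1, 0) (-1, 1) v))) _) =
      xor true (ω (Sum.inl (em (1, 0) (-1, 1) (v.2, v.1))) _)
    rw [nuT_em]
    rfl

theorem emE_rD (e : Edge (ℤ × ℤ)) :
    emE ((1, 0) : ZMod (2 * K) × ZMod K) (-1, 1) (rD.ρ e) =
      (rDg (nuT K)).ρ (emE (1, 0) (-1, 1) e) := by
  rcases e with v | v
  · show Sum.inr _ = Sum.inr (nuT K (em (1, 0) (-1, 1) v))
    rw [nuT_em]
  · show Sum.inl _ = Sum.inl (nuT K (em (1, 0) (-1, 1) v))
    rw [nuT_em]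

/-- **Reflection positivity of the skew torus.** -/
theorem rp_torD {c : ℝ} (hc : 1 ≤ c) {Λ : Finset (Edge (ℤ × ℤ))}
    (hΛ : ∀ e ∈ Λ, ∀ b, AD K (emE (1, 0) (-1, 1) e) b)
    {k : ℕ} (S : Fin k → Finset (Edge (ℤ × ℤ))) (F : Fin k → HO (ℤ × ℤ) → ℂ) (cc : Fin k → ℂ)
    (hS : ∀ j, S j ⊆ Λ)
    (hF : ∀ j, ∀ ω ω' : HO (ℤ × ℤ), (∀ e ∈ Λ, ω e = ω' e) → F j ω = F j ω') :
    0 ≤ (∑ i, ∑ j, (starRingEnd ℂ) (cc i) * cc j *
      zv c ((1, 0) : ZMod (2 * K) × ZMod K) (-1, 1) ((S i).image rD.ρ ∪ S j)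
      (fun ω => (starRingEnd ℂ) (F i (rD.act ω)) * F j ω)).re := by
  classical
  have hK0 : 0 < K := Nat.pos_of_ne_zero (NeZero.ne K)
  have v0 : (0 : ZMod (2 * K)).val = 0 := ZMod.val_zero
  refine rp_gen (rDg_ok nuT_nuT) unH_rD emE_rD (AD K) AD_iff
    (ι := Bool × ZMod K) (U := Bool × Bool) (a := 5)
    (fun i ω => if i.1 then (ω (Sum.inl (((K : ZMod (2 * K)), i.2) - (1, 0))) true,
        ω (Sum.inr ((K : ZMod (2 * K)), i.2)) false)
      else (ω (Sum.inl ((0 : ZMod (2 * K)), i.2)) false,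
        ω (Sum.inr (((0 : ZMod (2 * K)), i.2) - (-1, 1))) true)) ?_ (kd c) (kdg c) (kd_eq hc)
    ∅ (univ.filter fun e => ∀ b, AD K e b) (univ.filter fun v => hDg K v.1) ?_ ?_ ?_ ?_
    ?_ S F cc ?_ ?_
  · rintro ⟨b, y⟩ ω ω' h
    cases b
    · simp only [Bool.false_eq_true, if_false]
      rw [h (Sum.inl ((0 : ZMod (2 * K)), y)) false ?_,
        h (Sum.inr (((0 : ZMod (2 * K)), y) - (-1, 1))) true ?_]
      · show 1 ≤ ((0 : ZMod (2 * K)) - -1).val ∧ ((0 : ZMod (2 * K)) - -1).val ≤ K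
        rw [sub_neg_eq_add, val_add_one' K, v0]
        split_ifs <;> omega
      · show (0 : ZMod (2 * K)).val < K
        rw [v0]
        exact hK0
    · simp only [if_true]
      rw [h (Sum.inl (((K : ZMod (2 * K)), y) - (1, 0))) true ?_,
        h (Sum.inr ((K : ZMod (2 * K)), y)) false ?_]
      · show 1 ≤ (K : ZMod (2 * K)).val ∧ (K : ZMod (2 * K)).val ≤ K
        rw [val_K]
        omega
      · show ((K : ZMod (2 * K)) - 1).val < K
        rw [val_sub_one', val_K]
        split_ifs <;> omega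
  · intro v hv ω ω' h
    simp only [mem_filter, mem_univ, true_and] at hv
    unfold hDg at hv
    unfold hvw
    rw [h (Sum.inl (v - (1, 0))) true ?_, h (Sum.inl v) false hv.2,
      h (Sum.inr (v - (-1, 1))) true ?_, h (Sum.inr v) false ⟨hv.1, hv.2.le⟩]
    · show 1 ≤ (v.1 - -1).val ∧ (v.1 - -1).val ≤ K
      rw [sub_neg_eq_add, val_add_one' K]
      split_ifs <;> omega
    · show (v.1 - 1).val < K
      rw [val_sub_one']
      split_ifs <;> omega
  · intro e he b
    exact (mem_filter.1 he).2 b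
  · intro e
    simp only [mem_filter, mem_univ, true_and]
    right
    by_cases hc : AD K e false
    · exact Or.inl fun b => hc
    · right
      intro b
      by_contra hc'
      exact hc ((AD_iff e false).2 hc')
  · intro e he
    simp at he
  · intro ω
    rw [if_pos (by simp), eqD ω c, Fintype.prod_prod_type, Fintype.prod_bool, mul_comm
      (∏ y : ZMod K, hvw c (1, 0) (-1, 1) ω (0, y))]
    congr 1
    congr 1
    · refine Finset.prod_congr rfl fun y _ => ?_
      simp only [if_true]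
      have hnu : nuT K ((K : ZMod (2 * K)), y) = ((K : ZMod (2 * K)), y) := by
        show (-(K : ZMod (2 * K)), y + pK K (K : ZMod (2 * K))) = _
        rw [pK_K, two_K_zero, add_zero]
      have e1 : (rDg (nuT K)).act ω (Sum.inl (((K : ZMod (2 * K)), y) - (1, 0))) true =
          !ω (Sum.inr (((K : ZMod (2 * K)), y) - (-1, 1))) true := by
        show xor true (ω (Sum.inr (nuT K (((K : ZMod (2 * K)), y) - (1, 0)))) (xor false true)) = _
        rw [nuT_g1, hnu]; simp
      have e2 : (rDg (nuT K)).act ω (Sum.inr ((K : ZMod (2 * K)), y)) false =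
          !ω (Sum.inl ((K : ZMod (2 * K)), y)) false := by
        show xor true (ω (Sum.inl (nuT K ((K : ZMod (2 * K)), y))) (xor false false)) = _
        rw [hnu]; simp
      rw [e1, e2]
      exact kd_swap c _ _ _ _
    · refine Finset.prod_congr rfl fun y _ => ?_
      simp only [Bool.false_eq_true, if_false]
      have hnu : nuT K ((0 : ZMod (2 * K)), y) = ((0 : ZMod (2 * K)), y) := by
        show (-(0 : ZMod (2 * K)), y + pK K (0 : ZMod (2 * K))) = _
        rw [map_zero, neg_zero, add_zero]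
      have e1 : (rDg (nuT K)).act ω (Sum.inl ((0 : ZMod (2 * K)), y)) false =
          !ω (Sum.inr ((0 : ZMod (2 * K)), y)) false := by
        show xor true (ω (Sum.inr (nuT K ((0 : ZMod (2 * K)), y))) (xor false false)) = _
        rw [hnu]; simp
      have e2 : (rDg (nuT K)).act ω (Sum.inr (((0 : ZMod (2 * K)), y) - (-1, 1))) true =
          !ω (Sum.inl (((0 : ZMod (2 * K)), y) - (1, 0))) true := by
        show xor true (ω (Sum.inl (nuT K (((0 : ZMod (2 * K)), y) - (-1, 1)))) (xor false true)) = _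
        rw [nuT_g2, hnu]; simp
      rw [e1, e2]
      exact kd_line c _ _ _ _
  · intro j e he
    simp only [mem_filter, mem_univ, true_and]
    exact hΛ e (hS j he)
  · intro j ω ω' h
    refine hF j _ _ fun e he => ?_
    funext b
    exact h _ _ (hΛ e he b)

end tor

end Vale.Agent.P167.H592
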