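import Vale.Agent.P167.H592.Rp

/-!
# P167, block K1: reflection positivity of the standard tori in the columns
-/

namespace Vale.Agent.P167.H592

open Finset
open Vale.Agent.P152 (Edge Ori vw wt unroll)

/-- Reflection of the columns: the vertex `v` goes to `(1 - v.1, v.2)`, all arrows are reversed. -/
def rX (G H : Type) [AddCommGroupWithOne G] : Rf (G × H) where
  ρ := Sum.map (fun v => (-v.1, v.2)) (fun v => (1 - v.1, v.2))
  t := Sum.elim (fun _ => true) (fun _ => false)
  s := Sum.elim (fun _ => false) (fun _ => true)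

theorem rX_ok (G H : Type) [AddCommGroupWithOne G] : (rX G H).Ok where
  ρρ e := by
    rcases e with v | v
    · show Sum.inl (- -v.1, v.2) = Sum.inl v
      rw [neg_neg]
    · show Sum.inr (1 - (1 - v.1), v.2) = Sum.inr v
      rw [sub_sub_cancel]
  tρ e := by rcases e with v | v <;> rfl
  sρ e := by rcases e with v | v <;> rfl

theorem vw_X (c : ℝ) (l r b a : Bool) : vw c r l (!b) (!a) = vw c l r b a := by
  cases l <;> cases r <;> cases b <;> cases a <;> simp [vw]

theorem hvw_rX {G H : Type} [AddCommGroupWithOne G] [AddCommGroup H] [One H] (c : ℝ)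
    (ω : HO (G × H)) (v : G × H) :
    hvw c ((1, 0) : G × H) (0, 1) ((rX G H).act ω) v =
      hvw c ((1, 0) : G × H) (0, 1) ω (1 - v.1, v.2) := by
  have e1 : ((rX G H).act ω) (Sum.inl (v - (1, 0))) true = ω (Sum.inl (1 - v.1, v.2)) false := by
    show xor false (ω (Sum.inl (-(v - ((1, 0) : G × H)).1, (v - ((1, 0) : G × H)).2))
      (xor true true)) = _
    simp only [Bool.false_xor, Prod.fst_sub, Prod.snd_sub, sub_zero, neg_sub, Bool.xor_self]
  have e2 : ((rX G H).act ω) (Sum.inl v) false = ω (Sum.inl ((1 - v.1, v.2) - (1, 0))) true := by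
    show xor false (ω (Sum.inl (-v.1, v.2)) (xor true false)) = _
    simp only [Bool.false_xor, Prod.mk_sub_mk, sub_zero, sub_sub_cancel_left, Bool.xor_false]
  have e3 : ((rX G H).act ω) (Sum.inr (v - (0, 1))) true =
      !ω (Sum.inr ((1 - v.1, v.2) - (0, 1))) true := by
    show xor true (ω (Sum.inr (1 - (v - ((0, 1) : G × H)).1, (v - ((0, 1) : G × H)).2))
      (xor false true)) = _
    simp only [Bool.false_xor, Prod.fst_sub, Prod.snd_sub, sub_zero, Prod.mk_sub_mk, Bool.true_xor]
  have e4 : ((rX G H).act ω) (Sum.inr v) false = !ω (Sum.inr (1 - v.1, v.2)) false := by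
    show xor true (ω (Sum.inr (1 - v.1, v.2)) (xor false false)) = _
    simp
  unfold hvw
  rw [e1, e2, e3, e4]
  exact vw_X c _ _ _ _

section tor

set_option linter.unusedSectionVars false

variable {K L : ℕ} [NeZero K] [NeZero L]

/-- right half of the torus -/
def hX (K : ℕ) (x : ZMod (2 * K)) : Prop := 1 ≤ x.val ∧ x.val ≤ K

instance (K : ℕ) : DecidablePred (hX K) := fun x => by unfold hX; infer_instance

theorem val_add_one' (K : ℕ) [NeZero K] (x : ZMod (2 * K)) :
    (x + 1).val = if x.val + 1 = 2 * K then 0 else x.val + 1 := by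
  have hK : 0 < K := Nat.pos_of_ne_zero (NeZero.ne K)
  have h1 : (1 : ZMod (2 * K)).val = 1 := by
    have : Fact (1 < 2 * K) := ⟨by omega⟩
    exact ZMod.val_one _
  have hx := ZMod.val_lt x
  rw [ZMod.val_add, h1]
  split_ifs with h
  · rw [h, Nat.mod_self]
  · rw [Nat.mod_eq_of_lt (by omega)]

theorem val_neg' (K : ℕ) [NeZero K] (x : ZMod (2 * K)) :
    (-x).val = if x.val = 0 then 0 else 2 * K - x.val := by
  have hK : 0 < K := Nat.pos_of_ne_zero (NeZero.ne K)
  rw [ZMod.neg_val]
  by_cases h : x = 0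
  · rw [if_pos h, if_pos (by rw [h]; exact ZMod.val_zero)]
  · rw [if_neg h, if_neg (fun h' => h ((ZMod.val_eq_zero x).1 h'))]

theorem hX_refl (x : ZMod (2 * K)) : hX K x ↔ ¬ hX K (1 - x) := by
  have hK : 0 < K := Nat.pos_of_ne_zero (NeZero.ne K)
  have h1 : (1 - x) = -x + 1 := by ring
  have hx := ZMod.val_lt x
  unfold hX
  rw [h1, val_add_one' K, val_neg' K]
  split_ifs <;> omega

/-- the right half arrows -/
def AX (K L : ℕ) : Edge (ZMod (2 * K) × ZMod L) → Bool → Prop :=
  fun e b => hX K (Sum.elim (fun v => if b then v.1 + 1 else v.1) (fun v => v.1) e)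

theorem AX_iff (e : Edge (ZMod (2 * K) × ZMod L)) (b : Bool) :
    AX K L e b ↔ ¬ AX K L ((rX (ZMod (2 * K)) (ZMod L)).ρ e)
      (xor ((rX (ZMod (2 * K)) (ZMod L)).t e) b) := by
  rcases e with v | v
  · cases b
    · show hX K v.1 ↔ ¬ hX K (-v.1 + 1)
      rw [hX_refl, neg_add_eq_sub]
    · show hX K (v.1 + 1) ↔ ¬ hX K (-v.1)
      rw [hX_refl, sub_add_cancel_right]
  · exact hX_refl _

theorem two_K_zero (K : ℕ) : -(K : ZMod (2 * K)) = K := by
  have h : ((2 * K : ℕ) : ZMod (2 * K)) = 0 := ZMod.natCast_self _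
  rw [neg_eq_iff_add_eq_zero, ← h]
  push_cast
  ring

theorem val_K (K : ℕ) [NeZero K] : ((K : ZMod (2 * K))).val = K := by
  have hK : 0 < K := Nat.pos_of_ne_zero (NeZero.ne K)
  rw [ZMod.val_natCast, Nat.mod_eq_of_lt (by omega)]

theorem eqX (ω : HO (ZMod (2 * K) × ZMod L)) (c : ℝ) :
    (if ∀ e ∈ (univ.filter fun e : Edge (ZMod (2 * K) × ZMod L) =>
        ∃ y : ZMod L, e = Sum.inl (0, y) ∨ e = Sum.inl ((K : ZMod (2 * K)), y)),
        ω e false = ω e true then hw c (1, 0) (0, 1) ω else 0) =
      (∏ v ∈ univ.filter (fun v : ZMod (2 * K) × ZMod L => hX K v.1), hvw c (1, 0) (0, 1) ω v) *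
      (∏ v ∈ univ.filter (fun v : ZMod (2 * K) × ZMod L => hX K v.1),
        hvw c (1, 0) (0, 1) ((rX (ZMod (2 * K)) (ZMod L)).act ω) v) *
        ∏ i : ZMod L × Bool, (if (if i.2 then ω (Sum.inl ((K : ZMod (2 * K)), i.1)) false else
          ω (Sum.inl (0, i.1)) true) = (if i.2 then
            (rX (ZMod (2 * K)) (ZMod L)).act ω (Sum.inl ((K : ZMod (2 * K)), i.1)) false else
            (rX (ZMod (2 * K)) (ZMod L)).act ω (Sum.inl (0, i.1)) true) then (1 : ℝ) else 0) := by
  classical
  have h1 : ∏ v ∈ univ.filter (fun v : ZMod (2 * K) × ZMod L => ¬ hX K v.1),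
      hvw c (1, 0) (0, 1) ω v =
      ∏ v ∈ univ.filter (fun v : ZMod (2 * K) × ZMod L => hX K v.1),
        hvw c (1, 0) (0, 1) ((rX (ZMod (2 * K)) (ZMod L)).act ω) v := by
    refine Finset.prod_nbij' (fun v => (1 - v.1, v.2)) (fun v => (1 - v.1, v.2)) ?_ ?_ ?_ ?_ ?_
    · intro v hv
      simp only [mem_filter, mem_univ, true_and] at hv ⊢
      by_contra hc
      exact hv ((hX_refl v.1).2 hc)
    · intro v hv
      simp only [mem_filter, mem_univ, true_and] at hv ⊢
      exact (hX_refl v.1).1 hv
    · intro v _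
      show (1 - (1 - v.1), v.2) = v
      rw [sub_sub_cancel]
    · intro v _
      show (1 - (1 - v.1), v.2) = v
      rw [sub_sub_cancel]
    · intro v _
      rw [hvw_rX]
      show _ = hvw c (1, 0) (0, 1) ω (1 - (1 - v.1), v.2)
      rw [sub_sub_cancel]
  have h2 : (∏ i : ZMod L × Bool, (if (if i.2 then ω (Sum.inl ((K : ZMod (2 * K)), i.1)) false else
          ω (Sum.inl (0, i.1)) true) = (if i.2 then
            (rX (ZMod (2 * K)) (ZMod L)).act ω (Sum.inl ((K : ZMod (2 * K)), i.1)) false else
            (rX (ZMod (2 * K)) (ZMod L)).act ω (Sum.inl (0, i.1)) true) then (1 : ℝ) else 0)) =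
      if ∀ e ∈ (univ.filter fun e : Edge (ZMod (2 * K) × ZMod L) =>
        ∃ y : ZMod L, e = Sum.inl (0, y) ∨ e = Sum.inl ((K : ZMod (2 * K)), y)),
        ω e false = ω e true then 1 else 0 := by
    rw [Finset.prod_ite_zero]
    simp only [Finset.prod_const_one]
    have ha0 : ∀ y : ZMod L, (rX (ZMod (2 * K)) (ZMod L)).act ω (Sum.inl (0, y)) true =
        ω (Sum.inl (0, y)) false := by
      intro y
      show xor false (ω (Sum.inl (-0, y)) (xor true true)) = _
      rw [neg_zero]
      simp
    have haK : ∀ y : ZMod L, (rX (ZMod (2 * K)) (ZMod L)).act ω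
        (Sum.inl ((K : ZMod (2 * K)), y)) false = ω (Sum.inl ((K : ZMod (2 * K)), y)) true := by
      intro y
      show xor false (ω (Sum.inl (-(K : ZMod (2 * K)), y)) (xor true false)) = _
      rw [two_K_zero]
      simp
    refine if_congr ?_ rfl rfl
    constructor
    · intro h e he
      simp only [mem_filter, mem_univ, true_and] at he
      obtain ⟨y, rfl | rfl⟩ := he
      · have := h (y, false) (mem_univ _)
        simp only [Bool.false_eq_true, if_false, ha0] at this
        exact this.symm
      · have := h (y, true) (mem_univ _)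
        simp only [if_true, haK] at this
        exact this
    · rintro h ⟨y, b⟩ -
      cases b
      · simp only [Bool.false_eq_true, if_false, ha0]
        exact (h _ (by simp)).symm
      · simp only [if_true, haK]
        exact h _ (by simp)
  rw [h2, ← h1, Finset.prod_filter_mul_prod_filter_not, mul_ite, mul_one, mul_zero]
  rfl

theorem em_inl_std {M L : ℕ} (v : ℤ × ℤ) :
    em ((1, 0) : ZMod M × ZMod L) (0, 1) v = ((v.1 : ZMod M), (v.2 : ZMod L)) := by
  simp [em]

theorem unH_rX (ω : HO (ZMod (2 * K) × ZMod L)) :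
    unH (1, 0) (0, 1) ((rX (ZMod (2 * K)) (ZMod L)).act ω) =
      (rX ℤ ℤ).act (unH (1, 0) (0, 1) ω) := by
  funext e b
  rcases e with v | v
  · show xor false (ω (Sum.inl _) _) = xor false (ω (Sum.inl _) _)
    simp only [em_inl_std]
    push_cast
    rfl
  · show xor true (ω (Sum.inr _) _) = xor true (ω (Sum.inr _) _)
    simp only [em_inl_std]
    push_cast
    rfl

theorem emE_rX (e : Edge (ℤ × ℤ)) :
    emE ((1, 0) : ZMod (2 * K) × ZMod L) (0, 1) ((rX ℤ ℤ).ρ e) =
      (rX (ZMod (2 * K)) (ZMod L)).ρ (emE (1, 0) (0, 1) e) := by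
  rcases e with v | v
  · show Sum.inl _ = Sum.inl _
    simp only [em_inl_std]
    push_cast
    rfl
  · show Sum.inr _ = Sum.inr _
    simp only [em_inl_std]
    push_cast
    rfl

/-- **Reflection positivity of the standard torus.** -/
theorem rp_torX (c : ℝ) {Λ : Finset (Edge (ℤ × ℤ))}
    (hΛ : ∀ e ∈ Λ, ∀ b, AX K L (emE (1, 0) (0, 1) e) b)
    {k : ℕ} (S : Fin k → Finset (Edge (ℤ × ℤ))) (F : Fin k → HO (ℤ × ℤ) → ℂ) (cc : Fin k → ℂ)
    (hS : ∀ j, S j ⊆ Λ)
    (hF : ∀ j, ∀ ω ω' : HO (ℤ × ℤ), (∀ e ∈ Λ, ω e = ω' e) → F j ω = F j ω') :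
    0 ≤ (∑ i, ∑ j, (starRingEnd ℂ) (cc i) * cc j *
      zv c ((1, 0) : ZMod (2 * K) × ZMod L) (0, 1) ((S i).image (rX ℤ ℤ).ρ ∪ S j)
      (fun ω => (starRingEnd ℂ) (F i ((rX ℤ ℤ).act ω)) * F j ω)).re := by
  classical
  have hK0 : 0 < K := Nat.pos_of_ne_zero (NeZero.ne K)
  have v0 : (0 : ZMod (2 * K)).val = 0 := ZMod.val_zero
  refine rp_gen (rX_ok _ _) unH_rX emE_rX (AX K L) AX_iff
    (ι := ZMod L × Bool) (U := Bool) (a := 2)
    (fun i ω => if i.2 then ω (Sum.inl ((K : ZMod (2 * K)), i.1)) false else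
          ω (Sum.inl (0, i.1)) true) ?_ (fun x y => if x = y then 1 else 0)
    (fun α x => if (α = 0 ↔ x = true) then 1 else 0) ?_
    (univ.filter fun e : Edge (ZMod (2 * K) × ZMod L) =>
        ∃ y : ZMod L, e = Sum.inl (0, y) ∨ e = Sum.inl ((K : ZMod (2 * K)), y))
    (univ.filter fun e => ∀ b, AX K L e b) (univ.filter fun v => hX K v.1) ?_ ?_ ?_ ?_
    (fun ω => eqX ω c) S F cc ?_ ?_
  · rintro ⟨y, b⟩ ω ω' h
    cases b
    · simp only [Bool.false_eq_true, if_false]
      refine h _ _ ?_
      show hX K ((0 : ZMod (2 * K)) + 1)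
      unfold hX
      rw [val_add_one' K, v0]
      split_ifs <;> omega
    · simp only [if_true]
      refine h _ _ ?_
      show hX K (K : ZMod (2 * K))
      unfold hX
      rw [val_K]
      omega
  · intro x y
    rw [Fin.sum_univ_two]
    cases x <;> cases y <;> simp
  · intro v hv ω ω' h
    simp only [mem_filter, mem_univ, true_and] at hv
    unfold hvw
    rw [h (Sum.inl (v - (1, 0))) true ?_, h (Sum.inl v) false hv,
      h (Sum.inr (v - (0, 1))) true ?_, h (Sum.inr v) false hv]
    · show hX K (v - ((0, 1) : ZMod (2 * K) × ZMod L)).1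
      rw [Prod.fst_sub]
      simpa using hv
    · show hX K ((v - ((1, 0) : ZMod (2 * K) × ZMod L)).1 + 1)
      rw [Prod.fst_sub]
      simpa using hv
  · intro e he b
    exact (mem_filter.1 he).2 b
  · intro e
    simp only [mem_filter, mem_univ, true_and]
    rcases e with ⟨x, y⟩ | ⟨x, y⟩
    · by_cases h0 : x = 0
      · exact Or.inl ⟨y, Or.inl (by rw [h0])⟩
      by_cases hKx : x = (K : ZMod (2 * K))
      · exact Or.inl ⟨y, Or.inr (by rw [hKx])⟩
      right
      have hx := ZMod.val_lt x
      have h0' : x.val ≠ 0 := fun h => h0 ((ZMod.val_eq_zero x).1 h)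
      have hK' : x.val ≠ K := fun h => hKx (ZMod.val_injective _ (by rw [val_K, h]))
      by_cases hc : x.val < K
      · left
        intro b
        cases b
        · show hX K x
          unfold hX
          omega
        · show hX K (x + 1)
          unfold hX
          rw [val_add_one' K]
          split_ifs <;> omega
      · right
        intro b
        cases b
        · show hX K (-x)
          unfold hX
          rw [val_neg' K]
          split_ifs <;> omega
        · show hX K (-x + 1)
          unfold hX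
          rw [val_add_one' K, val_neg' K]
          split_ifs <;> omega
    · right
      by_cases hc : hX K x
      · exact Or.inl fun b => hc
      · right
        intro b
        show hX K (1 - x)
        by_contra hc'
        exact hc ((hX_refl x).2 hc')
  · intro e he
    simp only [mem_filter, mem_univ, true_and] at he ⊢
    obtain ⟨y, rfl | rfl⟩ := he
    · constructor
      · intro h
        have : hX K (0 : ZMod (2 * K)) := h false
        unfold hX at this
        rw [v0] at this
        omega
      · intro h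
        have : hX K (-(0 : ZMod (2 * K))) := h false
        unfold hX at this
        rw [neg_zero, v0] at this
        omega
    · constructor
      · intro h
        have : hX K ((K : ZMod (2 * K)) + 1) := h true
        unfold hX at this
        rw [val_add_one' K, val_K] at this
        split_ifs at this <;> omega
      · intro h
        have : hX K (-(K : ZMod (2 * K)) + 1) := h true
        unfold hX at this
        rw [two_K_zero, val_add_one' K, val_K] at this
        split_ifs at this <;> omega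
  · intro j e he
    simp only [mem_filter, mem_univ, true_and]
    exact hΛ e (hS j he)
  · intro j ω ω' h
    refine hF j _ _ fun e he => ?_
    funext b
    exact h _ _ (hΛ e he b)

end tor

end Vale.Agent.P167.H592
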